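import Vale.Agent.P216.H941D.Ow3
import Vale.Agent.P216.H893D.OmLC

/-!
# P216-D, weights of the power maps on the classes `om j` (4)

`omega_pwr`: for every `OmegaOut` at the base point of the geometry, the `m`-th power map acts on
`om j` by `m ^ j` (even degree `D`), `m ^ ⌈j / 2⌉` (odd degree `D`).
`omegaOnePwK`: OMEGA for a class of fields (`h = 1`), with the weights.
-/

open Finsupp Set BoundedContinuousFunction

namespace Vale.Agent.P216.H941D

open Vale.Agent.P216.Sl Vale.Agent.P216.PS Vale.Agent.P216.N929 Vale.Agent.P216.H977C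
open Vale.Agent.P216.AS Vale.Agent.P216.H894 Vale.Agent.P216.H285 Vale.Agent.P216.D337
open Vale.Agent.P216.B64 (HU hres hpull UMap OmegaOut)
open Vale.Agent.P216.H774D (pwr pwr_mem_P dist_pwr)
open Vale.Agent.P216.H893D (OmegaPwrE OmegaPwrO)

variable {k : Type} [Field k] {M : Type} [MetricSpace M] [CompactSpace M]

section

variable {n D : ℕ} (G : Geo M n) (τ : Tau k M n G.ρ₁)

/-- **The weights of the power maps on `om j`**, for every `OmegaOut` at the base point. -/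
theorem omega_pwr (hD : D + 1 = n) {Dp : ℝ} (hDp : IsPi M Dp) {T : ℝ} (hT : 0 ≤ T)
    (hne : ∀ b, ¬ ExL (P G.x₀ (G.y b) T) D (N929.om G τ b 1)) {B : ℝ} (hB : 0 ≤ B)
    (O : OmegaOut M D G.x₀ B k) {m : ℕ} (hm : 1 ≤ m) (j : ℕ) {t : ℝ} (ht : 0 < t)
    (h : UMap (P G.x₀ G.x₀ t) (P G.x₀ G.x₀ (m * t)) (pwr t m)) :
    hpull k h (j * D) (O.om j (m * t)) = (m : k) ^ wt D j • O.om j t := by
  have E : ∀ m : ℕ, 1 ≤ m → ∀ j, ∃ b : k, (∀ t, 0 < t →
      ∀ h : UMap (P G.x₀ G.x₀ t) (P G.x₀ G.x₀ (m * t)) (pwr t m),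
        hpull k h (j * D) (O.om j (m * t)) = b • O.om j t) ∧ EigO G D m j b :=
    fun m hm j => exists_eig_pwr hm hB (O.om j) (O.res_om j) (O.span j)
  obtain ⟨c, hc⟩ := exists_nat_ge (T + Dp)
  obtain ⟨b, hb, hE⟩ := E m hm j
  have h1 := eig_eq G τ hD (s := c) (fun N hN b => VO_loop_ne G τ hD hN hDp b hT (hne b) hc)
    (fun m hm j => ⟨_, (E m hm j).choose_spec.2⟩) m hm j b hE
  rw [hb t ht h, h1]

theorem wt_even (hD : D % 2 = 0) (j : ℕ) : wt D j = j := if_pos hD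

theorem wt_odd (hD : D % 2 = 1) (j : ℕ) : wt D j = (j + 1) / 2 := if_neg (by omega)

/-- both cases, in the form of the consumers -/
theorem omegaPwr (hD : D + 1 = n) {Dp : ℝ} (hDp : IsPi M Dp) {T : ℝ} (hT : 0 ≤ T)
    (hne : ∀ b, ¬ ExL (P G.x₀ (G.y b) T) D (N929.om G τ b 1)) {B : ℝ} (hB : 0 ≤ B)
    (O : OmegaOut M D G.x₀ B k) {m : ℕ} (hm : 1 ≤ m) :
    (D % 2 = 0 → OmegaPwrE O m) ∧ (D % 2 = 1 → OmegaPwrO O m) := by
  refine ⟨fun h j t ht hU => ?_, fun h j t ht hU => ?_⟩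
  · rw [omega_pwr G τ hD hDp hT hne hB O hm j ht hU, wt_even h]
  · rw [omega_pwr G τ hD hDp hT hne hB O hm j ht hU, wt_odd h]

end

/-- **OM1 with the weights of the power maps: OMEGA for a class of fields, `h = 1`.** -/
theorem omegaOnePwK {Kf : Fld} {M : Type} [MetricSpace M] [CompactSpace M]
    [SimplyConnectedSpace M] {n : ℕ} (hT : ThomK Kf M n) (hM : MidOneK Kf M n) :
    ∃ (x₀ : M) (B : ℝ), 0 < B ∧ ∀ (k : Type) [Field k], Kf k →
      ∃ O : OmegaOut M (n - 1) x₀ B k, ∀ m : ℕ, 1 ≤ m →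
        (n % 2 = 1 → OmegaPwrE O m) ∧ (n % 2 = 0 → OmegaPwrO O m) := by
  obtain ⟨G, s, hs0, H⟩ := hM
  have hn := G.hn
  obtain ⟨D, hD, hne, hj⟩ := H250.pi0 (G.hr.trans G.hrρ) G.seg
  have hB : 0 < OmSys.BB G.r (D + s) D := by
    have := G.hr
    unfold OmSys.BB
    linarith
  refine ⟨G.x₀, OmSys.BB G.r (D + s) D, hB, fun k _ hk => ?_⟩
  obtain ⟨τ, hτ⟩ := hT k hk G.ρ₁ G.h1
  have S : OmSys k M (n - 1) G.r (D + s) G.x₀ τ.f :=
    omSys G τ Crs.cross (N := n - 1) (by omega) (fun _ => D) (fun _ => s) (fun _ => hD)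
      (fun _ => hs0) (fun _ => rfl) (fun c => hne _ _) (ha_of_mid G τ hs0 (H k hk τ hτ))
  have hDp : IsPi M D := ⟨hD, hne, hj⟩
  have hom : ∀ b, ¬ ExL (P G.x₀ (G.y b) (D + D + s)) (n - 1) (N929.om G τ b 1) := by
    intro b
    have h0 : ¬ ExL (P G.x₀ (G.y (!b)) D) (0 * (n - 1)) (N929.om G τ (!b) 0) := by
      obtain ⟨w, hw⟩ := hne G.x₀ (G.y (!b))
      rw [Nat.zero_mul]
      intro hE
      have h1 := exL_zero hE hw
      rw [om_zero, one1, if_pos List.length_singleton] at h1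
      exact one_ne_zero h1
    have h1 := om_up G τ Crs.cross b 0 hD hD hs0 (hne (G.y (!b)) (G.y b)).some_mem
      (ha_of_mid G τ hs0 (H k hk τ hτ) b) h0
    rwa [Nat.zero_add, Nat.one_mul] at h1
  have e : n - 1 + 1 = n := by omega
  refine ⟨S.omegaOut (r₀ := G.ρ₁) (εt := τ.ε) (D := D) G.seg G.hr G.hrρ G.h1r τ.hε (by
    rw [e]
    exact ⟨τ.nrm, τ.coc, fun l _ _ h => τ.supp l h⟩)
    hDp (by linarith) (by omega), fun m hm => ?_⟩
  have h2 := omegaPwr G τ e hDp (by linarith) hom hB.le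
    (S.omegaOut (r₀ := G.ρ₁) (εt := τ.ε) (D := D) G.seg G.hr G.hrρ G.h1r τ.hε (by
      rw [e]
      exact ⟨τ.nrm, τ.coc, fun l _ _ h => τ.supp l h⟩)
      hDp (by linarith) (by omega)) hm
  exact ⟨fun h => h2.1 (by omega), fun h => h2.2 (by omega)⟩

/-- The same for a manifold with a given geometry, every `OmegaOut` at its base point. -/
theorem omegaPwr_of_mid {M : Type} [MetricSpace M] [CompactSpace M] [SimplyConnectedSpace M]
    {n : ℕ} (G : Geo M n) (τ : Tau k M n G.ρ₁) {s : ℝ} (hs0 : 0 ≤ s)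
    (hmid : Mid (D := n - 1) G τ (etaOne k M) s) {B : ℝ} (hB : 0 ≤ B)
    (O : OmegaOut M (n - 1) G.x₀ B k) {m : ℕ} (hm : 1 ≤ m) :
    (n % 2 = 1 → OmegaPwrE O m) ∧ (n % 2 = 0 → OmegaPwrO O m) := by
  have hn := G.hn
  obtain ⟨D, hD, hne, hj⟩ := H250.pi0 (G.hr.trans G.hrρ) G.seg
  have hom : ∀ b, ¬ ExL (P G.x₀ (G.y b) (D + D + s)) (n - 1) (N929.om G τ b 1) := by
    intro b
    have h0 : ¬ ExL (P G.x₀ (G.y (!b)) D) (0 * (n - 1)) (N929.om G τ (!b) 0) := by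
      obtain ⟨w, hw⟩ := hne G.x₀ (G.y (!b))
      rw [Nat.zero_mul]
      intro hE
      have h1 := exL_zero hE hw
      rw [om_zero, one1, if_pos List.length_singleton] at h1
      exact one_ne_zero h1
    have h1 := om_up G τ Crs.cross b 0 hD hD hs0 (hne (G.y (!b)) (G.y b)).some_mem
      (ha_of_mid G τ hs0 hmid b) h0
    rwa [Nat.zero_add, Nat.one_mul] at h1
  have h2 := omegaPwr G τ (D := n - 1) (by omega) ⟨hD, hne, hj⟩ (by linarith) hom hB O hm
  exact ⟨fun h => h2.1 (by omega), fun h => h2.2 (by omega)⟩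

end Vale.Agent.P216.H941D
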