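import Vale.Agent.P216.H941D.PowG
import Vale.Agent.P216.B633.PRho

/-!
# The power maps of the free loop space and the operators `WOp` (block [LIFT-W2] of P216-D)

`pow0 G hD hm` : the power map `(γ, z) ↦ (γ (m ·), z)` on the `GSys` of `M`.
`exists_wop_pow` : for `p ∤ m` the operator `WOp m⁻¹ m (m s) s` of the level-wise system `T0` which
on the non equivariant cohomology is the pull back under `iter m : XL M s → XL M (m s)`.
-/

open Set Topology
open Vale.Agent.P216.H288 Vale.Agent.P216.H494 Vale.Agent.P216.L250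

namespace Vale.Agent.P216.H941D

open AS GM B64 B633 B609 DV706

section

variable {M : Type} [MetricSpace M]

theorem mapsTo_iter {m : ℕ} {s : ℝ} (hs : 0 ≤ s) :
    MapsTo (iter m : LM M → LM M) (XL M s) (XL M (m * s)) := by
  intro g hg
  rw [XL_eq hs] at hg
  rw [XL_eq (by positivity)]
  exact iter_mem hg m

/-- `iter m : XL M s → XL M (m s)` -/
theorem umap_iter [CompactSpace M] {m : ℕ} (hm : 0 < m) {s : ℝ} (hs : 0 ≤ s) :
    UMap (XL M s) (XL M (m * s)) (iter m) :=
  umap_of (isometry_iter hm).continuous.continuousOn (mapsTo_iter hs)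

variable [CompactSpace M] (G : GeoList M) (hD : DescentStmt (Hol.triv : Hol M) G)

/-- **The power map.** -/
noncomputable def pow0 {m : ℕ} (hm : 0 < m) : (R0 G hD).Pow m where
  f := liftR (iter m)
  rot a q := Prod.ext (rot_iter a m q.1) rfl
  tau _ := rfl
  theta q := Prod.ext (rev_iter m q.1).symm rfl
  mem _ hs _ hq := ⟨mapsTo_iter hs hq.1, hq.2⟩
  cont _ _ := ((isometry_iter hm).continuous.comp continuous_fst).continuousOn.prodMk
    continuous_snd.continuousOn

variable (k : Type) [Field k] {p : ℕ} [CharP k p] (hp : p.Prime) (h2 : 2 < p)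
  (hf : RotS.FinAt (S0 G hD) k)

/-- **The operator of the power map on the level-wise system.** -/
theorem exists_wop_pow {m : ℕ} (hm0 : 0 < m) (hm : ¬ p ∣ m) {s : ℝ} (hs : 0 ≤ s) :
    ∃ W : (T0 G hD k hp h2 hf).WOp (m : k)⁻¹ (m : k) (m * s) s,
      ∀ n (x : (S0 G hD).V k (m * s) n),
        phi G hD k s n (W.B n x) = hpull k (umap_iter hm0 hs) n (phi G hD k (m * s) n x) := by
  obtain ⟨W, hW⟩ := (pow0 G hD hm0).exists_wop k hp h2 hm hf hs
  exact ⟨W, fun n x => (congrArg (phi G hD k s n) (hW n x)).trans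
    (phi_pull G hD (umap_iter hm0 hs) ((pow0 G hD hm0).isMap hs) n x)⟩

end

end Vale.Agent.P216.H941D
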