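import Vale.Agent.P216.H941D.Pow

/-!
# Semilinear maps of pairs: the maps on cohomology (block [LIFT-W2] of P216-D)

`SMor P P' l φ`: `φ` a chain map with `g' φ = φ g ^ l`, `nm' φ = φ nm`, compatible with the pairs.
`mF`, `mE`, `mH`: `mF (u x) = l u (mF x)`, `π (mF x) = mE (π x)`, `δ (mE x) = l mF (δ x)`,
`b (mE x) = mH (b x)`, `mE (a x) = l a (mH x)` (when `g` acts trivially on `HH`).
-/

namespace Vale.Agent.P216.H941D

open Vale.Agent.P216.AS Vale.Agent.P216.H609 Finset SLin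

variable {k : Type} [Field k] {C C' : Amb k} {G : GCx C} {G' : GCx C'}

/-- A semilinear morphism of pairs. -/
structure SMor (P : G.Pair) (P' : G'.Pair) (l : ℕ) (φ : ∀ n, C.K n →ₗ[k] C'.K n) : Prop
    extends SLin G G' l φ where
  mapS : ∀ {n x}, x ∈ P.S.S n → φ n x ∈ P'.S.S n
  mapT : ∀ {n x}, x ∈ P.T.S n → φ n x ∈ P'.T.S n

namespace SMor

variable {P : G.Pair} {P' : G'.Pair} {l : ℕ} {φ : ∀ n, C.K n →ₗ[k] C'.K n}

omit [Field k] in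
theorem cp_mem [Field k] {C C' : Amb k} {G : GCx C} {φ : ∀ n, C.K n →ₗ[k] C'.K n} {l : ℕ}
    {S : Sub C} (hS : G.Stable S) {S' : Sub C'} (hφ : ∀ {n x}, x ∈ S.S n → φ n x ∈ S'.S n)
    (n : ℕ) {q : ℕ} {x : C.K q} (hx : x ∈ S.S q) : cp G l φ n q x ∈ S'.S q := by
  rcases Nat.mod_two_eq_zero_or_one (n + q) with hq | hq
  · rw [cp_even hq]; exact Submodule.smul_mem _ _ (hφ hx)
  · rw [cp_odd hq]; exact Submodule.smul_mem _ _ (hφ (NN_mem G hS l hx))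

variable (h : SMor P P' l φ)

include h in
theorem mor : IsMor P.S P.T P'.S P'.T φ where
  mapS hx := h.mapS hx
  mapT hx := h.mapT hx
  comm {n x} _ := by rw [h.d, sub_self]; exact Submodule.zero_mem _

theorem Phi_zero {n q : ℕ} {c : ∀ q, C.K q} (hq : c q = 0) : Phi G l φ n c q = 0 := by
  rw [Phi_apply, hq, map_zero]

include h in
theorem Phi_TS {n : ℕ} {c : ∀ q, C.K q} (hc : c ∈ (G.TotS P.S P.hS).S n) :
    Phi G l φ n c ∈ (G'.TotS P'.S P'.hS).S n :=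
  ⟨fun q hq => cp_mem P.hS h.mapS n (hc.1 q hq), fun q hq => Phi_zero (hc.2 q hq)⟩

include h in
theorem Phi_TT {n : ℕ} {c : ∀ q, C.K q} (hc : c ∈ (G.TotS P.T P.hT).S n) :
    Phi G l φ n c ∈ (G'.TotS P'.T P'.hT).S n :=
  ⟨fun q hq => cp_mem P.hT h.mapT n (hc.1 q hq), fun q hq => Phi_zero (hc.2 q hq)⟩

include h in
theorem Phi_TU {n : ℕ} {c : ∀ q, C.K q} (hc : c ∈ (G.TotU P.S P.T P.hS P.hT P.le).S n) :
    Phi G l φ n c ∈ (G'.TotU P'.S P'.T P'.hS P'.hT P'.le).S n :=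
  ⟨fun q hq => cp_mem P.hS h.mapS n (hc.1 q hq),
    fun q hq hq' => cp_mem P.hT h.mapT n (hc.2.1 q hq hq'), fun q hq => Phi_zero (hc.2.2 q hq)⟩

include h in
theorem D_Phi_sub {n : ℕ} {c : ∀ q, C.K q} (hc : c ∈ (G.TotS P.S P.hS).S n) :
    G'.D n (Phi G l φ n c) - Phi G l φ (n + 1) (G.D n c) = 0 := by
  rw [h.D_Phi fun q hq => hc.2 q hq, sub_self]

include h in
theorem tot : IsMor (G.TotS P.S P.hS) (G.TotS P.T P.hT) (G'.TotS P'.S P'.hS)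
    (G'.TotS P'.T P'.hT) (fun n => Phi G l φ n : ∀ n, G.Tot.K n →ₗ[k] G'.Tot.K n) where
  mapS hx := h.Phi_TS hx
  mapT hx := h.Phi_TT hx
  comm {n x} hx := by
    have h1 := h.D_Phi_sub hx
    change G'.D n (Phi G l φ n x) - Phi G l φ (n + 1) (G.D n x) ∈ _
    rw [h1]
    exact Submodule.zero_mem _

include h in
theorem totE : IsMor (G.TotS P.S P.hS) (G.TotU P.S P.T P.hS P.hT P.le) (G'.TotS P'.S P'.hS)
    (G'.TotU P'.S P'.T P'.hS P'.hT P'.le)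
    (fun n => Phi G l φ n : ∀ n, G.Tot.K n →ₗ[k] G'.Tot.K n) where
  mapS hx := h.Phi_TS hx
  mapT hx := h.Phi_TU hx
  comm {n x} hx := by
    have h1 := h.D_Phi_sub hx
    change G'.D n (Phi G l φ n x) - Phi G l φ (n + 1) (G.D n x) ∈ _
    rw [h1]
    exact Submodule.zero_mem _

/-- map on `H` -/
def mH (n : ℕ) : P.HH n →ₗ[k] P'.HH n := Hmap h.mor n

/-- map on `FF` -/
def mF (n : ℕ) : P.FF n →ₗ[k] P'.FF n := Hmap h.tot n

/-- map on `EE` -/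
def mE (n : ℕ) : P.EE n →ₗ[k] P'.EE n := Hmap h.totE n

theorem mH_mk {n : ℕ} {x : C.K n} (hx : x ∈ Zc P.S P.T n) :
    h.mH n (H.mk x hx) = H.mk (φ n x) (h.mor.mapZ hx) := rfl

theorem mF_mk {n : ℕ} {c : ∀ q, C.K q}
    (hc : c ∈ Zc (G.TotS P.S P.hS) (G.TotS P.T P.hT) n) :
    h.mF n (H.mk c hc) = H.mk (C := G'.Tot) (Phi G l φ n c) (h.tot.mapZ hc) := rfl

theorem mE_mk {n : ℕ} {c : ∀ q, C.K q}
    (hc : c ∈ Zc (G.TotS P.S P.hS) (G.TotU P.S P.T P.hS P.hT P.le) n) :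
    h.mE n (H.mk c hc) = H.mk (C := G'.Tot) (Phi G l φ n c) (h.totE.mapZ hc) := rfl

theorem Phi_add_two {n : ℕ} {c : ∀ q, C.K q} (hc : ∀ q, n < q → c q = 0) :
    Phi G l φ (n + 2) c = (l : k) • Phi G l φ n c := by
  funext q
  rw [Pi.smul_apply, Phi_apply, Phi_apply]
  rcases Nat.lt_or_ge n q with hq | hq
  · rw [hc q hq, map_zero, map_zero, smul_zero]
  · have e : (n + 2 - q) / 2 = (n - q) / 2 + 1 := by omega
    rcases Nat.mod_two_eq_zero_or_one (n + q) with h' | h'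
    · rw [cp_even (show (n + 2 + q) % 2 = 0 by omega), cp_even h', smul_smul, ← pow_succ', e]
    · rw [cp_odd (show (n + 2 + q) % 2 = 1 by omega), cp_odd h', smul_smul, ← pow_succ', e]

theorem mF_u (n : ℕ) (x : P.FF n) : h.mF (n + 2) (P.u n x) = (l : k) • P'.u n (h.mF n x) := by
  obtain ⟨c, hc, rfl⟩ := H.exists_mk x
  obtain ⟨h1, e1⟩ := DV.Circ.PSt.u_mk hc
  obtain ⟨h2, e2⟩ := DV.Circ.PSt.u_mk (P := P') (h.tot.mapZ hc)
  rw [e1, mF_mk, mF_mk, e2, ← H.mk_smul]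
  exact DV.mk_congr (D := G'.Tot) (Phi_add_two fun q hq => (mem_Zc.mp hc).1.2 q hq) _ _

theorem π_mF (n : ℕ) (x : P.FF n) : P'.π n (h.mF n x) = h.mE n (P.π n x) := by
  obtain ⟨c, hc, rfl⟩ := H.exists_mk x
  rfl

theorem b_mE (n : ℕ) (x : P.EE n) : P'.b n (h.mE n x) = h.mH n (P.b n x) := by
  obtain ⟨c, hc, rfl⟩ := H.exists_mk x
  obtain ⟨h1, e1⟩ := DV.Circ.PSt.b_mk hc
  obtain ⟨h2, e2⟩ := DV.Circ.PSt.b_mk (P := P') (h.totE.mapZ hc)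
  rw [e1, mE_mk, mH_mk, e2]
  refine DV.mk_congr ?_ _ _
  change Phi G l φ n c n = φ n (c n)
  rw [Phi_apply, cp_even (by omega), Nat.sub_self, Nat.zero_div, pow_zero, one_smul]

theorem δ_mE (n : ℕ) (x : P.EE (n + 1)) :
    P'.δ n (h.mE (n + 1) x) = (l : k) • h.mF n (P.δ n x) := by
  obtain ⟨c, hc, rfl⟩ := H.exists_mk x
  obtain ⟨y, hy, hcy⟩ := P.exists_δ hc
  rw [P.δ_mk hc hy hcy, mE_mk, mF_mk, ← H.mk_smul]
  refine P'.δ_mk _ _ ?_
  have h1 := h.D_Phi_sub (n := n + 1) (c := c) (mem_Zc.mp hc).1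
  have h2 : Phi G l φ (n + 2) (G.D (n + 1) c - y) ∈ (G'.TotS P'.T P'.hT).S (n + 2) :=
    h.Phi_TT hcy
  rw [map_sub, Phi_add_two fun q hq => (mem_Zc.mp hy).1.2 q hq] at h2
  rw [sub_eq_zero] at h1
  rw [h1]
  exact h2

theorem sg_Phi (n : ℕ) (x : C.K n) :
    Phi G l φ (n + 1) (GCx.Pair.sg n x) = GCx.Pair.sg n (φ n (NN G l n x)) := by
  funext q
  rw [Phi_apply]
  rcases eq_or_ne q n with rfl | hne
  · rw [GCx.Pair.sg_same, GCx.Pair.sg_same, cp_odd (by omega),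
      show (q + 1 - q) / 2 = 0 by omega, pow_zero, one_smul]
  · rw [GCx.Pair.sg_ne hne, GCx.Pair.sg_ne hne, map_zero]

/-- `mE a = l a mH` -/
theorem mE_a {X : DV.Circ G} (hX : X.PSt P) (n : ℕ) (x : P.HH n) :
    h.mE (n + 1) (P.a n x) = (l : k) • P'.a n (h.mH n x) := by
  obtain ⟨x, hx, rfl⟩ := H.exists_mk x
  have hMS : MM G l n x ∈ P.S.S n := MM_mem G P.hS l (mem_Zc.mp hx).1
  have hM : MM G l n x ∈ Zc P.S P.T n :=
    mem_Zc.mpr ⟨hMS, by rw [d_MM]; exact MM_mem G P.hT l (mem_Zc.mp hx).2⟩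
  have hNS : NN G l n x ∈ P.S.S n := NN_mem G P.hS l (mem_Zc.mp hx).1
  have hN : NN G l n x ∈ Zc P.S P.T n :=
    mem_Zc.mpr ⟨hNS, by rw [d_NN]; exact NN_mem G P.hT l (mem_Zc.mp hx).2⟩
  have e0 : (l : k) • H.mk x hx = H.mk (NN G l n x) hN := by
    have h1 := hX.oneSub_eq_zero n (H.mk (MM G l n x) hM)
    rw [P.oneSub_mk, H.mk_eq_zero] at h1
    rw [← H.mk_smul, H.mk_eq_mk, ← MM_sub]
    have h2 : MM G l n (x - G.g n x) = MM G l n x - G.g n (MM G l n x) := by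
      rw [map_sub, MM_apply, MM_apply, map_sum]
      congr 1
      exact sum_congr rfl fun a _ => NN_g G a n x
    rw [h2]
    exact h1
  have e1 : h.mE (n + 1) (P.a n (H.mk x hx)) = P'.a n (h.mH n (H.mk (NN G l n x) hN)) := by
    obtain ⟨h1, e1⟩ := DV.Circ.PSt.a_mk' hx
    obtain ⟨h2, e2⟩ := DV.Circ.PSt.a_mk' (P := P') (h.mor.mapZ hN)
    rw [e1, mE_mk, mH_mk, e2]
    exact DV.mk_congr (D := G'.Tot) (sg_Phi n x) _ _
  rw [e1, ← e0, map_smul, map_smul]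

end SMor

end Vale.Agent.P216.H941D
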