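import Vale.Agent.P216.H285.Pow7

/-!
# P216-D, weights of the power maps on the classes `om j` (1)

The classes with one mesh, their exact expansions on concatenations, and the cup products of the
classes on the powers of a cycle of degree `n - 1`.
-/

open Finsupp Set BoundedContinuousFunction

namespace Vale.Agent.P216.H941D

open Vale.Agent.P216.Sl Vale.Agent.P216.PS Vale.Agent.P216.N929 Vale.Agent.P216.H977C
open Vale.Agent.P216.AS Vale.Agent.P216.H894 Vale.Agent.P216.H285

variable {k : Type} [Field k] {M : Type} [MetricSpace M] [CompactSpace M]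

section

variable {n : ℕ} (G : Geo M n) (τ : Tau k M n G.ρ₁)

/-- The classes, with one mesh. -/
noncomputable def VO (N : ℕ) : ℕ → Bool → List (ℝ →ᵇ M) → k
  | 0, _ => one1 k _
  | j + 1, b => sp G τ N (!b) (VO N j (!b))

/-- The scales. -/
noncomputable def eo : ℕ → {ε : ℝ // 0 < ε}
  | 0 => ⟨1, one_pos⟩
  | j + 1 =>
    let h := fun b : Bool => exists_scl (y := G.y b) τ G.h1r (cutMod G.seg G.hr G.hrρ _) (eo j).2
    ⟨min (eo j).1 (min (h true).choose (h false).choose),
      lt_min (eo j).2 (lt_min (h true).choose_spec.pos (h false).choose_spec.pos)⟩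

theorem eo_scl (j : ℕ) (b : Bool) :
    Scl τ G.r (G.y b) (eo G τ j).1 (eo G τ (j + 1)).1 := by
  cases b
  · exact (exists_scl (y := G.y false) τ G.h1r (cutMod G.seg G.hr G.hrρ _)
      (eo G τ j).2).choose_spec.mono (eo G τ (j + 1)).2
      ((min_le_right _ _).trans (min_le_right _ _))
  · exact (exists_scl (y := G.y true) τ G.h1r (cutMod G.seg G.hr G.hrρ _)
      (eo G τ j).2).choose_spec.mono (eo G τ (j + 1)).2
      ((min_le_right _ _).trans (min_le_left _ _))

theorem eo_succ (j : ℕ) : (eo G τ (j + 1)).1 ≤ (eo G τ j).1 := min_le_left _ _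

theorem eo_anti {i j : ℕ} (h : i ≤ j) : (eo G τ j).1 ≤ (eo G τ i).1 := by
  induction j, h using Nat.le_induction with
  | base => exact le_rfl
  | succ j _ ih => exact (eo_succ G τ j).trans ih

theorem VO_zero (N : ℕ) (b : Bool) : VO G τ N 0 b = one1 k _ := rfl

theorem VO_succ (N j : ℕ) (b : Bool) :
    VO G τ N (j + 1) b = sp G τ N (!b) (VO G τ N j (!b)) := rfl

theorem VO_nrm (N j : ℕ) (b : Bool) : Nrm (VO G τ N j b) := by
  induction j generalizing b with
  | zero => exact nrm_one1
  | succ j ih => exact nrm_stp τ (ih _)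

/-- A step of a cocycle is a cocycle. -/
theorem sp_coc' {N j m : ℕ} (hN : 1 / ((N : ℝ) + 1) < (eo G τ (j + 1)).1) {b : Bool}
    {g : List (ℝ →ᵇ M) → k} (hg : ∀ T, Coc (P G.x₀ (G.y b) T) (eo G τ j).1 m g) {q : M}
    (hq : G.ρ₁ ≤ dist q (G.y b)) (T : ℝ) :
    Coc (P G.x₀ q T) (eo G τ (j + 1)).1 (n + m - 1) (sp G τ N b g) :=
  stp_coc' τ G.seg G.hr G.hrρ (eo_scl G τ j b) hq (G.hx b) (by have := G.hn; omega) hg
    (by positivity) hN T

/-- The classes are cocycles. -/
theorem VO_coc {D : ℕ} (hD : D + 1 = n) {N j : ℕ} (hN : 1 / ((N : ℝ) + 1) < (eo G τ j).1)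
    (b : Bool) {q : M} (hq : G.ρ₁ ≤ dist q (G.y (!b))) (T : ℝ) :
    Coc (P G.x₀ q T) (eo G τ j).1 (j * D) (VO G τ N j b) := by
  induction j generalizing b q T with
  | zero => rw [Nat.zero_mul]; exact coc_one1 _ _
  | succ j ih =>
    have h1 : ∀ T, Coc (P G.x₀ (G.y (!b)) T) (eo G τ j).1 (j * D)
        (VO G τ N j (!b)) := fun T =>
      ih (hN.trans_le (eo_succ G τ j)) (!b) (by have := G.hy (!b); simpa using this) T
    have h2 := sp_coc' G τ hN h1 hq T
    have e' : n + j * D - 1 = (j + 1) * D := by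
      have := G.hn
      rw [Nat.add_mul, Nat.one_mul]
      omega
    rwa [e'] at h2

/-- The tensors of the expansion. -/
noncomputable def mo (N D j : ℕ) (b : Bool) (i : ℕ) : Tm k M :=
  ⟨(j - i) * D, VO G τ N (j - i) (nb i b), i * D, VO G τ N i b⟩

/-- The list of the tensors. -/
noncomputable def MO (N D j : ℕ) (b : Bool) : List (Tm k M) :=
  (List.range (j + 1)).map (mo G τ N D j b)

theorem MO_deg {N D j : ℕ} {b : Bool} {x : Tm k M} (hx : x ∈ MO G τ N D j b) :
    x.a + x.b = j * D := by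
  obtain ⟨i, hi, rfl⟩ := List.mem_map.1 hx
  have hi := List.mem_range.1 hi
  change (j - i) * D + i * D = j * D
  rw [← Nat.add_mul]
  congr 1
  omega

/-- **The expansion of `VO j b`.** -/
theorem exp_VO {D : ℕ} (hD : D + 1 = n) {N j : ℕ} (hN : 1 / ((N : ℝ) + 1) < (eo G τ j).1)
    (b : Bool) {q : M} (hq : G.ρ₁ ≤ dist q (G.y (!b))) :
    Exp G.x₀ q (eo G τ j).1 (j * D) (VO G τ N j b) (MO G τ N D j b) := by
  induction j generalizing b q with
  | zero =>
    intro c S hS s t hst hsn htn hsm htf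
    have hsl := List.length_pos_iff.2 hsn
    have htl := List.length_pos_iff.2 htn
    rw [Nat.zero_mul] at hst
    obtain ⟨u, rfl⟩ := List.length_eq_one_iff.1 (by omega : s.length = 1)
    obtain ⟨v, rfl⟩ := List.length_eq_one_iff.1 (by omega : t.length = 1)
    rw [MO, H285.bc, VO_zero, Sh_one, ev_single, H285.tsum]
    simp [mo, one1, VO_zero]
  | succ j ih =>
    have hn2 := G.hn
    have hqb : G.ρ₁ ≤ dist (G.y (!b)) (G.y (!(!b))) := G.hy (!b)
    have hev : Even (n * D) := by
      rw [← hD]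
      exact Nat.mul_comm D (D + 1) ▸ Nat.even_mul_succ_self D
    have h1 := ih (hN.trans_le (eo_succ G τ j)) (!b) hqb
    have h2 := exp_stp (q := q) (m' := (j + 1) * D) τ G.seg G.hr G.hrρ (eo_scl G τ j (!b))
      (Λ := MO G τ N D j (!b)) (fun x hx => by
        obtain ⟨i, hi, rfl⟩ := List.mem_map.1 hx
        change Even (n * ((j - i) * D))
        rw [show n * ((j - i) * D) = (n * D) * (j - i) by ring]
        exact hev.mul_right _) (VO_nrm G τ N j (!b)) (G.hx _) hq h1
      (fun x hx => MO_deg G τ hx) hN (by rw [Nat.add_mul, Nat.one_mul]; omega)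
    refine h2.congr fun s t hs ht => ?_
    rw [tsum_cons, MO, MO, List.range_succ_eq_map (n := j + 1), List.map_cons, tsum_cons]
    congr 1
    rw [H285.tsum, H285.tsum, List.map_map, List.map_map, List.map_map, List.map_map]
    congr 1
    refine List.map_congr_left fun i hi => ?_
    have hi := List.mem_range.1 hi
    have e3 : j + 1 - (i + 1) = j - i := by omega
    simp only [Function.comp_apply, mo, Nat.succ_eq_add_one, e3]
    rfl

end

end Vale.Agent.P216.H941D
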