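import Mathlib

/-!
# P216-D: the structure constants of the cup products of the classes `om j`

`sb D`: binomial coefficients for even `D`, their version at `q = -1` for odd `D`.
-/

namespace Vale.Agent.P216.H941D

/-- The structure constants. -/
def sb (D : ℕ) : ℕ → ℕ → ℤ
  | 0, _ => 1
  | _ + 1, 0 => 1
  | a + 1, b + 1 => (-1) ^ (D * (b + 1)) * sb D a (b + 1) + sb D (a + 1) b

theorem sb_zero_left (D b : ℕ) : sb D 0 b = 1 := by rw [sb]

theorem sb_zero_right (D a : ℕ) : sb D a 0 = 1 := by cases a <;> rw [sb]

theorem sb_succ (D a b : ℕ) :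
    sb D (a + 1) (b + 1) = (-1) ^ (D * (b + 1)) * sb D a (b + 1) + sb D (a + 1) b := by rw [sb]

theorem sb_even {D : ℕ} (hD : Even D) (a b : ℕ) : sb D a b = ((a + b).choose b : ℕ) := by
  induction a generalizing b with
  | zero => rw [sb_zero_left, Nat.zero_add, Nat.choose_self]; rfl
  | succ a iha =>
    induction b with
    | zero => rw [sb_zero_right, Nat.choose_zero_right]; rfl
    | succ b ihb =>
      rw [sb_succ, iha, ihb, (hD.mul_right _).neg_one_pow, one_mul,
        show a + 1 + (b + 1) = (a + b + 1) + 1 by ring, Nat.choose_succ_succ,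
        show a + (b + 1) = a + b + 1 by ring, show a + 1 + b = a + b + 1 by ring]
      push_cast
      ring

theorem sb_odd {D : ℕ} (hD : Odd D) (a b : ℕ) :
    sb D a b = if a % 2 = 1 ∧ b % 2 = 1 then 0 else ((a / 2 + b / 2).choose (a / 2) : ℕ) := by
  induction a generalizing b with
  | zero =>
    rw [sb_zero_left, if_neg (by omega), Nat.zero_div, Nat.choose_zero_right]; rfl
  | succ a iha =>
    induction b with
    | zero =>
      rw [sb_zero_right, if_neg (by omega), Nat.zero_div, Nat.add_zero, Nat.choose_self]; rfl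
    | succ b ihb =>
      rw [sb_succ, iha, ihb]
      obtain ⟨p, rfl | rfl⟩ : ∃ p, a = 2 * p ∨ a = 2 * p + 1 := ⟨a / 2, by omega⟩ <;>
        obtain ⟨q, rfl | rfl⟩ : ∃ q, b = 2 * q ∨ b = 2 * q + 1 := ⟨b / 2, by omega⟩
      · have h1 : Odd (D * (2 * q + 1)) := hD.mul ⟨q, rfl⟩
        rw [if_neg (by omega), if_neg (by omega), if_pos (by omega), h1.neg_one_pow,
          show 2 * p / 2 = p by omega, show (2 * q + 1) / 2 = q by omega,
          show (2 * p + 1) / 2 = p by omega, show 2 * q / 2 = q by omega]
        ring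
      · have h1 : Even (D * (2 * q + 1 + 1)) := Even.mul_left (⟨q + 1, by ring⟩ : Even (2 * q + 1 + 1)) D
        rw [if_neg (by omega), if_pos (by omega), if_neg (by omega), h1.neg_one_pow,
          show 2 * p / 2 = p by omega, show (2 * q + 1 + 1) / 2 = q + 1 by omega,
          show (2 * p + 1) / 2 = p by omega]
        ring
      · rw [if_pos (by omega), if_neg (by omega), if_neg (by omega),
          show (2 * q + 1) / 2 = q by omega,
          show 2 * q / 2 = q by omega]
        ring
      · have h1 : Even (D * (2 * q + 1 + 1)) := Even.mul_left (⟨q + 1, by ring⟩ : Even (2 * q + 1 + 1)) D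
        rw [if_neg (by omega), if_neg (by omega), if_neg (by omega), h1.neg_one_pow,
          show (2 * p + 1) / 2 = p by omega, show (2 * q + 1 + 1) / 2 = q + 1 by omega,
          show (2 * q + 1) / 2 = q by omega, show (2 * p + 1 + 1) / 2 = p + 1 by omega,
          show p + 1 + (q + 1) = (p + q + 1) + 1 by ring, Nat.choose_succ_succ,
          show p + (q + 1) = p + q + 1 by ring, show p + 1 + q = p + q + 1 by ring]
        push_cast
        ring

theorem sum_two {A : Type} [AddCommMonoid A] (f : ℕ → A) (r : ℕ) :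
    ∑ i ∈ Finset.range (2 * r), f i = ∑ q ∈ Finset.range r, (f (2 * q) + f (2 * q + 1)) := by
  induction r with
  | zero => simp
  | succ r ih =>
    rw [show 2 * (r + 1) = 2 * r + 1 + 1 by ring, Finset.sum_range_succ, Finset.sum_range_succ,
      ih, Finset.sum_range_succ, add_assoc]

/-- The weights. -/
def wt (D j : ℕ) : ℕ := if D % 2 = 0 then j else (j + 1) / 2

/-- **The recursion of the weights.** -/
theorem sb_sum (D m j : ℕ) :
    ∑ i ∈ Finset.range (j + 1), (m : ℤ) ^ wt D (j - i) * sb D (j - i) i =
      ((m : ℤ) + 1) ^ wt D j := by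
  rcases Nat.even_or_odd D with hD | hD
  · have hw : ∀ j, wt D j = j := fun j => if_pos (Nat.even_iff.1 hD)
    simp only [hw, sb_even hD]
    rw [show (m : ℤ) + 1 = 1 + m by ring, add_pow]
    refine Finset.sum_congr rfl fun i hi => ?_
    have hi := Finset.mem_range.1 hi
    rw [one_pow, one_mul, Nat.sub_add_cancel (by omega)]
  · have hw : ∀ j, wt D j = (j + 1) / 2 := fun j => if_neg (by
      have := Nat.odd_iff.1 hD
      omega)
    have key : ∀ r : ℕ, ∑ q ∈ Finset.range (r + 1), (m : ℤ) ^ (r - q) * (r.choose (r - q) : ℕ) =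
        ((m : ℤ) + 1) ^ r := by
      intro r
      rw [show (m : ℤ) + 1 = 1 + m by ring, add_pow]
      refine Finset.sum_congr rfl fun i hi => ?_
      have hi := Finset.mem_range.1 hi
      rw [one_pow, one_mul, Nat.choose_symm (by omega)]
    simp only [hw, sb_odd hD]
    obtain ⟨r, rfl | rfl⟩ : ∃ r, j = 2 * r ∨ j = 2 * r + 1 := ⟨j / 2, by omega⟩
    · rw [Finset.sum_range_succ, sum_two, show (2 * r + 1) / 2 = r by omega, ← key r,
        Finset.sum_range_succ]
      congr 1
      · refine Finset.sum_congr rfl fun q hq => ?_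
        have hq := Finset.mem_range.1 hq
        rw [if_neg (by omega), if_pos (by omega), Nat.cast_zero, mul_zero, add_zero,
          show (2 * r - 2 * q + 1) / 2 = r - q by omega, show (2 * r - 2 * q) / 2 = r - q by omega,
          show 2 * q / 2 = q by omega, Nat.sub_add_cancel (by omega)]
      · rw [if_neg (by omega), show (2 * r - 2 * r + 1) / 2 = r - r by omega,
          show (2 * r - 2 * r) / 2 = r - r by omega, show 2 * r / 2 = r by omega,
          Nat.sub_add_cancel le_rfl]
    · rw [show 2 * r + 1 + 1 = 2 * (r + 1) by ring, sum_two,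
        show 2 * (r + 1) / 2 = r + 1 by omega, pow_succ, ← key r, Finset.sum_mul]
      refine Finset.sum_congr rfl fun q hq => ?_
      have hq := Finset.mem_range.1 hq
      rw [if_neg (by omega), if_neg (by omega),
        show (2 * r + 1 - 2 * q + 1) / 2 = r - q + 1 by omega,
        show (2 * r + 1 - 2 * q) / 2 = r - q by omega,
        show 2 * q / 2 = q by omega,
        show (2 * r + 1 - (2 * q + 1) + 1) / 2 = r - q by omega,
        show (2 * r + 1 - (2 * q + 1)) / 2 = r - q by omega,
        show (2 * q + 1) / 2 = q by omega, Nat.sub_add_cancel (by omega)]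
      ring

end Vale.Agent.P216.H941D
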