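import Vale.Agent.P216.H941D.Ow1
import Vale.Agent.P216.H941D.Sb

/-!
# P216-D, weights of the power maps on the classes `om j` (2)

The values of the cup products of the classes on the powers of a cycle of degree `n - 1`.
-/

open Finsupp Set BoundedContinuousFunction

namespace Vale.Agent.P216.H941D

open Vale.Agent.P216.Sl Vale.Agent.P216.PS Vale.Agent.P216.N929 Vale.Agent.P216.H977C
open Vale.Agent.P216.AS Vale.Agent.P216.H894 Vale.Agent.P216.H285

variable {k : Type} [Field k] {M : Type} [MetricSpace M] [CompactSpace M]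

section

variable {n D : ℕ} (G : Geo M n) (τ : Tau k M n G.ρ₁)

/-- **The values of the cup products on the powers of a cycle.** -/
theorem ev_cup_pwO (hD : D + 1 = n) {N J : ℕ} (hN : 1 / ((N : ℝ) + 1) < (eo G τ J).1) (s : ℕ)
    {h : Ch k (ℝ →ᵇ M)} (hh : Cy (P G.x₀ G.x₀ s) (eo G τ J).1 D h) : ∀ (j i₁ i₂ : ℕ)
    (b₁ b₂ : Bool), i₁ + i₂ = j → j ≤ J →
      ev (N929.cup (i₁ * D) (VO G τ N i₁ b₁) (VO G τ N i₂ b₂)) (pw G.x₀ s h j) =
        (sb D i₁ i₂ : k) * (pp (fun b => ev (VO G τ N 1 b) h) i₁ b₁ *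
          pp (fun b => ev (VO G τ N 1 b) h) i₂ b₂) := by
  have hn2 := G.hn
  have hD1 : 1 ≤ D := by omega
  have hpw := fun j => pw_InP (s := (s : ℝ)) (Nat.cast_nonneg s) (InP.of_cy hh) j
  intro j
  induction j with
  | zero =>
    intro i₁ i₂ b₁ b₂ hi _
    obtain rfl : i₁ = 0 := by omega
    obtain rfl : i₂ = 0 := by omega
    rw [pw_zero, ev_single, VO_zero, VO_zero, N929.cup, pp, pp, sb_zero_left]
    simp [one1]
  | succ j ih =>
    intro i₁ i₂ b₁ b₂ hi hj
    -- the scales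
    have hes : ∀ i, i ≤ J → 1 / ((N : ℝ) + 1) < (eo G τ i).1 := fun i hi =>
      hN.trans_le (eo_anti G τ hi)
    have x₁ := (exp_VO G τ hD (hes i₁ (by omega)) b₁ (G.hx _)).mono
      (eo_anti G τ (by omega : i₁ ≤ J))
    have x₂ := (exp_VO G τ hD (hes i₂ (by omega)) b₂ (G.hx _)).mono
      (eo_anti G τ (by omega : i₂ ≤ J))
    have hexp := exp_cupp x₁ x₂ (fun x hx => MO_deg G τ hx) (fun x hx => MO_deg G τ hx)
    have hc : ((j * s : ℕ) : ℝ) = j * s := by push_cast; ring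
    have e0 : (j + 1) * D = j * D + D := by ring
    have e1 : (i₁ + i₂) * D = (j + 1) * D := by rw [hi]
    rw [Nat.add_mul] at e1
    rw [pw_succ, ← hc, ev_conc hexp (Nat.cast_nonneg s) (a := j * D) (d := D) (by omega)
      (z := pw G.x₀ s h j) (by rw [hc]; exact hpw j) hh.1, List.map_map, flat_sum]
    set w : Bool → k := fun b => ev (VO G τ N 1 b) h with hw
    set φ : Tm k M × Tm k M → k := fun p => if j * D = (p.1.mul p.2).a then
      ev (p.1.mul p.2).f (pw G.x₀ s h j) * ev (p.1.mul p.2).g h else 0 with hφ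
    have hφ' : ((fun x : Tm k M => if j * D = x.a then ev x.f (pw G.x₀ s h j) * ev x.g h else 0) ∘
        fun p : Tm k M × Tm k M => p.1.mul p.2) = φ := rfl
    rw [hφ', show MO G τ N D i₁ b₁ = (List.range (i₁ + 1)).map
      (mo G τ N D i₁ b₁) from rfl, List.map_map, list_range_sum]
    have z₃ : ∀ α ∈ Finset.range (i₁ + 1), ((fun x => ((MO G τ N D i₂ b₂).map fun y =>
        φ (x, y)).sum) ∘ mo G τ N D i₁ b₁) α =
        ∑ β ∈ Finset.range (i₂ + 1), (if α ≤ i₁ ∧ β ≤ i₂ then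
          φ (mo G τ N D i₁ b₁ α, mo G τ N D i₂ b₂ β) else 0) := by
      intro α hα
      have hα := Finset.mem_range.1 hα
      rw [Function.comp_apply, MO, List.map_map, list_range_sum]
      refine Finset.sum_congr rfl fun β hβ => ?_
      have hβ := Finset.mem_range.1 hβ
      rw [if_pos ⟨by omega, by omega⟩]
      rfl
    rw [Finset.sum_congr rfl z₃, sum_one _ (fun α β hαβ => ?_)]
    rotate_left
    · split_ifs with h1
      · rw [hφ]
        simp only
        rw [if_neg]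
        intro h2
        change j * D = (i₁ - α) * D + (i₂ - β) * D at h2
        rw [← Nat.add_mul] at h2
        have := Nat.eq_of_mul_eq_mul_right (by omega) h2
        omega
      · rfl
    -- the two values
    have v₁ : 1 ≤ i₁ → φ (mo G τ N D i₁ b₁ 1, mo G τ N D i₂ b₂ 0) =
        (-1) ^ (D * i₂) * (sb D (i₁ - 1) i₂ : k) * (pp w i₁ b₁ * pp w i₂ b₂) := by
      intro h1
      rw [hφ]
      simp only
      rw [if_pos (by
        change j * D = (i₁ - 1) * D + (i₂ - 0) * D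
        rw [← Nat.add_mul]
        congr 1
        omega)]
      have t1 : ev ((mo G τ N D i₁ b₁ 1).mul (mo G τ N D i₂ b₂ 0)).f (pw G.x₀ s h j) =
          (-1) ^ (D * i₂) * ((sb D (i₁ - 1) i₂ : k) * (pp w (i₁ - 1) (!b₁) * pp w i₂ b₂)) := by
        rw [← ih (i₁ - 1) i₂ (!b₁) b₂ (by omega) (by omega)]
        have : ((mo G τ N D i₁ b₁ 1).mul (mo G τ N D i₂ b₂ 0)).f =
            fun l => (-1) ^ (1 * D * ((i₂ - 0) * D)) * N929.cup ((i₁ - 1) * D)
              (VO G τ N (i₁ - 1) (!b₁)) (VO G τ N i₂ b₂) l := rfl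
        rw [this, ev_smul_fun]
        congr 1
        refine neg_one_pow_congr' ?_
        have h3 : 1 * D * ((i₂ - 0) * D) = i₂ * (D * D) := by rw [Nat.sub_zero]; ring
        rw [h3, Nat.mul_mod, Nat.mul_mod D D, Nat.mul_mod D i₂]
        rcases Nat.mod_two_eq_zero_or_one D with h4 | h4 <;>
          rcases Nat.mod_two_eq_zero_or_one i₂ with h5 | h5 <;> rw [h4, h5]
      have t2 : ev ((mo G τ N D i₁ b₁ 1).mul (mo G τ N D i₂ b₂ 0)).g h = w b₁ := by
        refine ev_congr (fun l hl => ?_) hh.1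
        change N929.cup (1 * D) (VO G τ N 1 b₁) (VO G τ N 0 b₂) l = _
        rw [N929.cup, VO_zero, one1, if_pos (by rw [List.length_drop]; have := hl.1; omega),
          List.take_of_length_le (by have := hl.1; omega), mul_one]
      rw [t1, t2]
      obtain ⟨i, rfl⟩ : ∃ i, i₁ = i + 1 := ⟨i₁ - 1, by omega⟩
      rw [Nat.add_sub_cancel, pp]
      ring
    have v₂ : 1 ≤ i₂ → φ (mo G τ N D i₁ b₁ 0, mo G τ N D i₂ b₂ 1) =
        (sb D i₁ (i₂ - 1) : k) * (pp w i₁ b₁ * pp w i₂ b₂) := by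
      intro h1
      rw [hφ]
      simp only
      rw [if_pos (by
        change j * D = (i₁ - 0) * D + (i₂ - 1) * D
        rw [← Nat.add_mul]
        congr 1
        omega)]
      have t1 : ev ((mo G τ N D i₁ b₁ 0).mul (mo G τ N D i₂ b₂ 1)).f (pw G.x₀ s h j) =
          (sb D i₁ (i₂ - 1) : k) * (pp w i₁ b₁ * pp w (i₂ - 1) (!b₂)) := by
        rw [← ih i₁ (i₂ - 1) b₁ (!b₂) (by omega) (by omega)]
        have : ((mo G τ N D i₁ b₁ 0).mul (mo G τ N D i₂ b₂ 1)).f =
            fun l => (-1) ^ (0 * D * ((i₂ - 1) * D)) * N929.cup ((i₁ - 0) * D)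
              (VO G τ N (i₁ - 0) b₁) (VO G τ N (i₂ - 1) (!b₂)) l := rfl
        rw [this, ev_smul_fun, Nat.zero_mul, Nat.zero_mul, pow_zero, one_mul, Nat.sub_zero]
      have t2 : ev ((mo G τ N D i₁ b₁ 0).mul (mo G τ N D i₂ b₂ 1)).g h = w b₂ := by
        refine ev_congr (fun l hl => ?_) hh.1
        change N929.cup (0 * D) (VO G τ N 0 b₁) (VO G τ N 1 b₂) l = _
        rw [N929.cup, VO_zero, one1, if_pos (by rw [List.length_take]; have := hl.1; omega),
          Nat.zero_mul, List.drop_zero, one_mul]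
      rw [t1, t2]
      obtain ⟨i, rfl⟩ : ∃ i, i₂ = i + 1 := ⟨i₂ - 1, by omega⟩
      rw [Nat.add_sub_cancel, pp]
      ring
    rcases Nat.eq_zero_or_pos i₁ with h1 | h1
    · have h2 : 1 ≤ i₂ := by omega
      rw [if_neg (by omega), if_pos h2, if_pos ⟨Nat.zero_le _, h2⟩, v₂ h2, h1, zero_add,
        sb_zero_left, sb_zero_left]
    · have h1 : 1 ≤ i₁ := h1
      rcases Nat.eq_zero_or_pos i₂ with h2 | h2
      · rw [if_pos h1, if_pos ⟨h1, Nat.zero_le _⟩, if_neg (by omega), v₁ h1, add_zero, h2,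
          Nat.mul_zero, pow_zero, one_mul, sb_zero_right, sb_zero_right]
      · have h2 : 1 ≤ i₂ := h2
        rw [if_pos h1, if_pos ⟨h1, Nat.zero_le _⟩, if_pos h2, if_pos ⟨Nat.zero_le _, h2⟩, v₁ h1,
          v₂ h2]
        obtain ⟨i, rfl⟩ : ∃ i, i₁ = i + 1 := ⟨i₁ - 1, by omega⟩
        obtain ⟨i', rfl⟩ : ∃ i, i₂ = i + 1 := ⟨i₂ - 1, by omega⟩
        rw [Nat.add_sub_cancel, Nat.add_sub_cancel, sb_succ]
        push_cast
        ring

/-- The values of the classes on the powers of a cycle. -/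
theorem ev_pwO (hD : D + 1 = n) {N J : ℕ} (hN : 1 / ((N : ℝ) + 1) < (eo G τ J).1) (s : ℕ)
    {h : Ch k (ℝ →ᵇ M)} (hh : Cy (P G.x₀ G.x₀ s) (eo G τ J).1 D h) {j : ℕ} (hj : j ≤ J)
    (b : Bool) :
    ev (VO G τ N j b) (pw G.x₀ s h j) = pp (fun b => ev (VO G τ N 1 b) h) j b := by
  have h1 := ev_cup_pwO G τ hD hN s hh j j 0 b b (by omega) hj
  rw [sb_zero_right, pp, Int.cast_one, one_mul, mul_one] at h1
  rw [← h1]
  refine ev_congr (fun l hl => ?_) (pw_InP (s := (s : ℝ)) (Nat.cast_nonneg s) (InP.of_cy hh) j)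
  rw [N929.cup, VO_zero, one1, if_pos (by rw [List.length_drop]; have := hl.1; omega),
    List.take_of_length_le (by have := hl.1; omega), mul_one]

end

end Vale.Agent.P216.H941D
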