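import Vale.Agent.P216.H774D.Pwr
import Vale.Agent.P216.H787.Cls

/-!
# P216-D: naturality of the power maps of the based Moore loops in the duration

`exL_pwr_nat`: on the loops of duration `s ≤ t`, the maps `pwr s m` and `pwr t m` have the same
effect on cohomology. `exists_eig_pwr`: on a line of families, the power maps act by a scalar,
the same for all real durations.
-/

set_option linter.all false

namespace Vale.Agent.P216.H941D

open Set BoundedContinuousFunction
open Vale.Agent.P216.B64 Vale.Agent.P216.AS Vale.Agent.P216.MV337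
open Vale.Agent.P216.PS Vale.Agent.P216.H774D
open Vale.Agent.P216.Sl (cls exists_cls cls_eq_zero cls_add cls_smul cls_sub pull_cls res_cls
  CocL ExL Nrm cls_eq_cls)

variable {M : Type} [MetricSpace M] [CompactSpace M]

variable {a : M} {s t σ σ' : ℝ} {w w' : ℝ →ᵇ M}

theorem dist_cat_time {c c' : ℝ} {v u : ℝ →ᵇ M} (hv : Lip v) (hvc : ∀ x, c ≤ x → v x = u 0)
    (hu : Lip u) (hcc : c ≤ c') : dist (cat c v u) (cat c' v u) ≤ c' - c := by
  refine (BoundedContinuousFunction.dist_le (sub_nonneg.2 hcc)).2 fun x => ?_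
  have h1 : v c = u 0 := hvc c le_rfl
  have h2 : v c' = u 0 := hvc c' hcc
  rw [cat_apply hv hu h1, cat_apply hv hu h2]
  rcases le_total x c with hx | hx
  · rw [catf_left hx, catf_left (hx.trans hcc), dist_self]
    exact sub_nonneg.2 hcc
  · rcases le_total x c' with hx' | hx'
    · rw [catf_right h1 hx, catf_left hx', hvc x hx]
      refine (hu _ _).trans ?_
      rw [sub_zero, abs_of_nonneg (by linarith)]
      linarith
    · rw [catf_right h1 hx, catf_right h2 hx']
      refine (hu _ _).trans (le_of_eq ?_)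
      have : x - c - (x - c') = c' - c := by ring
      rw [this, abs_of_nonneg (sub_nonneg.2 hcc)]

theorem pwr_const_after (h0 : 0 ≤ s) (hw : w ∈ P a a s) (h1 : s ≤ σ) (m : ℕ) :
    ∀ x, (m : ℝ) * σ ≤ x → pwr σ m w x = w 0 := by
  intro x hx
  have h2 := pwr_mem_P (h0.trans h1) (P_mono h1 hw) m
  rw [eq_right h2 hx, eq_left hw le_rfl]

/-- The power maps in two durations are close. -/
theorem dist_pwr_pwr (h0 : 0 ≤ s) (hw : w ∈ P a a s) (h1 : s ≤ σ) (h2 : σ ≤ σ') (m : ℕ) :
    dist (pwr σ m w) (pwr σ' m w) ≤ m * m * (σ' - σ) := by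
  have hd : 0 ≤ σ' - σ := sub_nonneg.2 h2
  have hσ : 0 ≤ σ := h0.trans h1
  induction m with
  | zero =>
    have : pwr σ 0 w = pwr σ' 0 w := rfl
    rw [this, dist_self]
    simp
  | succ m ih =>
    have hwσ := P_mono h1 hw
    have hwσ' := P_mono (h1.trans h2) hw
    have p1 := pwr_mem_P hσ hwσ m
    have p2 := pwr_mem_P (hσ.trans h2) hwσ' m
    have hmm : (m : ℝ) * σ ≤ m * σ' := mul_le_mul_of_nonneg_left h2 (Nat.cast_nonneg m)
    have e1 : dist (cat (m * σ) (pwr σ m w) w) (cat (m * σ') (pwr σ m w) w) ≤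
        m * σ' - m * σ :=
      dist_cat_time p1.1 (pwr_const_after h0 hw h1 m) hw.1 hmm
    have e2 : dist (cat (m * σ') (pwr σ m w) w) (cat (m * σ') (pwr σ' m w) w) ≤
        max (dist (pwr σ m w) (pwr σ' m w)) (dist w w) :=
      dist_cat_cat_le p1.1 p2.1 hw.1 hw.1 (pwr_const_after h0 hw h1 m _ hmm)
        (pwr_const_after h0 hw (h1.trans h2) m _ le_rfl)
    rw [dist_self, max_eq_left dist_nonneg] at e2
    have e3 := dist_triangle (cat (m * σ) (pwr σ m w) w) (cat (m * σ') (pwr σ m w) w)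
      (cat (m * σ') (pwr σ' m w) w)
    show dist (cat (m * σ) (pwr σ m w) w) (cat (m * σ') (pwr σ' m w) w) ≤ _
    refine e3.trans ((add_le_add e1 (e2.trans ih)).trans ?_)
    push_cast
    have hm0 : (0:ℝ) ≤ m := Nat.cast_nonneg m
    nlinarith [mul_nonneg hm0 hd]

theorem dist_pwr_pwr' (h0 : 0 ≤ s) (hw : w ∈ P a a s) (hw' : w' ∈ P a a s) (h1 : s ≤ σ)
    (h2 : s ≤ σ') (m : ℕ) :
    dist (pwr σ m w) (pwr σ' m w') ≤ m * m * |σ - σ'| + dist w w' := by
  have e2 : dist (pwr σ' m w) (pwr σ' m w') ≤ dist w w' :=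
    dist_pwr (h0.trans h2) (P_subset_FL (P_mono h2 hw)) (P_subset_FL (P_mono h2 hw')) m
  have e1 : dist (pwr σ m w) (pwr σ' m w) ≤ m * m * |σ - σ'| := by
    rcases le_total σ σ' with h | h
    · rw [abs_sub_comm, abs_of_nonneg (sub_nonneg.2 h)]
      exact dist_pwr_pwr h0 hw h1 h m
    · rw [dist_comm, abs_of_nonneg (sub_nonneg.2 h)]
      exact dist_pwr_pwr h0 hw h2 h m
  exact (dist_triangle _ (pwr σ' m w) _).trans (add_le_add e1 e2)

/-- The homotopy between the power maps in two durations. -/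
theorem htpy_pwr (h0 : 0 ≤ s) (hst : s ≤ t) (m : ℕ) :
    IsHtpy (a0 (ℝ →ᵇ M)) (a0 (ℝ →ᵇ M)) (P a a s) (P a a (m * t))
      (fun l => pwr (s + l * (t - s)) m) := by
  have aux : ∀ l ∈ Icc (0:ℝ) 1, s ≤ s + l * (t - s) ∧ s + l * (t - s) ≤ t := by
    intro l hl
    have h1 := hl.1
    have h2 := hl.2
    constructor
    · nlinarith [mul_nonneg h1 (sub_nonneg.2 hst)]
    · nlinarith [mul_nonneg (sub_nonneg.2 h2) (sub_nonneg.2 hst)]
  refine ⟨fun l hl w hw => ?_, fun _ _ i => i.elim, fun ε hε => ?_⟩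
  · have h1 := aux l hl
    exact P_mono (mul_le_mul_of_nonneg_left h1.2 (Nat.cast_nonneg m))
      (pwr_mem_P (h0.trans h1.1) (P_mono h1.1 hw) m)
  · have hd : 0 ≤ t - s := sub_nonneg.2 hst
    have hC : 0 < (m : ℝ) * m * (t - s) + 1 := by positivity
    refine ⟨min (ε / 2 / ((m : ℝ) * m * (t - s) + 1)) (ε / 2), lt_min (by positivity)
      (by positivity), fun l hl l' hl' x hx y hy hll hxy => ?_⟩
    have h1 := aux l hl
    have h2 := aux l' hl'
    refine (dist_pwr_pwr' h0 hx hy h1.1 h2.1 m).trans_lt ?_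
    have h3 := hll.trans_le (min_le_left _ _)
    have h4 := hxy.trans_le (min_le_right _ _)
    have e : s + l * (t - s) - (s + l' * (t - s)) = (l - l') * (t - s) := by ring
    rw [e, abs_mul, abs_of_nonneg hd]
    rw [lt_div_iff₀ hC] at h3
    have h5 : (m : ℝ) * m * (|l - l'| * (t - s)) ≤
        |l - l'| * ((m : ℝ) * m * (t - s) + 1) := by
      have := abs_nonneg (l - l')
      nlinarith
    linarith

variable {k : Type} [Field k] {q : ℕ}

/-- **Naturality of the power maps in the duration**, list level. -/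
theorem exL_pwr_nat (h0 : 0 ≤ s) (hst : s ≤ t) (m : ℕ) {f : List (ℝ →ᵇ M) → k}
    (hf : CocL (P a a (m * t)) q f) :
    ExL (P a a s) q fun l => f (l.map (pwr t m)) - f (l.map (pwr s m)) := by
  have h := htpy_pwr (a := a) h0 hst m
  have h1 := DFunLike.congr_fun (pull_homotopy (χ := c0 k) h q)
    (cls (a0 (ℝ →ᵇ M)) (c0 k) f hf)
  rw [pull_cls, pull_cls, cls_eq_cls] at h1
  rw [one_mul, add_sub_cancel, zero_mul, add_zero] at h1
  exact h1

theorem umap_pwr_P (h0 : 0 ≤ t) (m : ℕ) : UMap (P a a t) (P a a (m * t)) (pwr t m) :=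
  ⟨fun _ hw => pwr_mem_P h0 hw m, fun e => e.elim, fun ε hε =>
    ⟨ε, hε, fun _ hw _ hw' h =>
      (dist_pwr h0 (P_subset_FL hw) (P_subset_FL hw') m).trans_lt h⟩⟩

/-- **Naturality of the power maps in the duration.** -/
theorem hpull_pwr_nat (h0 : 0 ≤ s) (hst : s ≤ t) (m : ℕ)
    (ht : UMap (P a a t) (P a a (m * t)) (pwr t m))
    (hs : UMap (P a a s) (P a a (m * s)) (pwr s m))
    (h1 : P a a s ⊆ P a a t) (h2 : P a a (m * s) ⊆ P a a (m * t))
    (z : HU k (P a a (m * t)) q) :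
    hres k h1 q (hpull k ht q z) = hpull k hs q (hres k h2 q z) := by
  obtain ⟨f, hf, hN, rfl⟩ := exists_cls z
  show res h1 q (pull (c0 k) ht q (cls _ _ f hf)) = pull (c0 k) hs q (res h2 q (cls _ _ f hf))
  rw [pull_cls, res_cls, res_cls, pull_cls, cls_eq_cls]
  exact exL_pwr_nat h0 hst m hf

/-- **The eigenvalue of the power maps on a line of families.** -/
theorem exists_eig_pwr {m : ℕ} (hm : 1 ≤ m) {B : ℝ} (hB : 0 ≤ B)
    (x : ∀ t : ℝ, HU k (P a a t) q)
    (hx : ∀ s t (h : s ≤ t), hres k (PS.P_mono h) q (x t) = x s)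
    (span : ∀ t, 0 ≤ t → ∀ (h : P a a t ⊆ P a a (t + B)) (z : HU k (P a a (t + B)) q),
      ∃ c : k, hres k h q z = c • x t) :
    ∃ b : k, (∀ t, 0 < t → ∀ h : UMap (P a a t) (P a a (m * t)) (pwr t m),
        hpull k h q (x (m * t)) = b • x t) ∧
      ∀ f : List (ℝ →ᵇ M) → k, (∀ T, 0 < T → CocL (P a a T) q f) → ∀ t, 0 < t →
        ExL (P a a t) q fun l => f (l.map (pwr t m)) - b * f l := by
  have hm' : (1 : ℝ) ≤ m := by exact_mod_cast hm
  -- the scalar at every duration
  have h1 : ∀ t, 0 < t → ∃ c : k, ∀ h : UMap (P a a t) (P a a (m * t)) (pwr t m),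
      hpull k h q (x (m * t)) = c • x t := by
    intro t ht
    have htB : t ≤ t + B := by linarith
    obtain ⟨c, hc⟩ := span t ht.le (P_mono htB)
      (hpull k (umap_pwr_P (ht.le.trans htB) m) q (x (m * (t + B))))
    refine ⟨c, fun h => ?_⟩
    rw [hpull_pwr_nat ht.le htB m _ h _ (P_mono (mul_le_mul_of_nonneg_left htB (by linarith))),
      hx _ _ (mul_le_mul_of_nonneg_left htB (by linarith))] at hc
    exact hc
  -- one scalar
  have h2 : ∃ b : k, ∀ t, 0 < t → ∀ h : UMap (P a a t) (P a a (m * t)) (pwr t m),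
      hpull k h q (x (m * t)) = b • x t := by
    by_cases hne : ∃ T, 0 < T ∧ x T ≠ 0
    · obtain ⟨T, hT, hne⟩ := hne
      obtain ⟨b, hb⟩ := h1 T hT
      refine ⟨b, fun t ht h => ?_⟩
      rcases le_total t T with htT | htT
      · have hmm : (m : ℝ) * t ≤ m * T := mul_le_mul_of_nonneg_left htT (by linarith)
        have e := hpull_pwr_nat (q := q) (k := k) ht.le htT m (umap_pwr_P hT.le m) h
          (P_mono htT) (P_mono hmm) (x (m * T))
        rw [hb, hx _ _ hmm, map_smul, hx _ _ htT] at e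
        exact e.symm
      · obtain ⟨c, hc⟩ := h1 t ht
        have hmm : (m : ℝ) * T ≤ m * t := mul_le_mul_of_nonneg_left htT (by linarith)
        have e := hpull_pwr_nat (q := q) (k := k) hT.le htT m h (umap_pwr_P hT.le m)
          (P_mono htT) (P_mono hmm) (x (m * t))
        rw [hc, hx _ _ hmm, map_smul, hx _ _ htT, hb] at e
        have e2 : (c - b) • x T = 0 := by rw [sub_smul, e, sub_self]
        have e3 : c = b := sub_eq_zero.1 ((smul_eq_zero.1 e2).resolve_right hne)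
        rw [hc, e3]
    · push Not at hne
      refine ⟨0, fun t ht h => ?_⟩
      rw [hne (m * t) (by positivity), map_zero, zero_smul]
  obtain ⟨b, hb⟩ := h2
  refine ⟨b, hb, fun f hf t ht => ?_⟩
  have hmt : 0 < (m : ℝ) * t := by positivity
  have hle : (m : ℝ) * t ≤ m * t + B := by linarith
  have htm : t ≤ m * t := le_mul_of_one_le_left ht.le hm'
  obtain ⟨c, hc⟩ := span (m * t) hmt.le (P_mono hle)
    (cls (a0 _) (c0 k) f (hf _ (by linarith)))
  have e1 : cls (a0 _) (c0 k) f (hf _ hmt) = c • x (m * t) := hc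
  have e2 : cls (a0 _) (c0 k) f (hf _ ht) = c • x t := by
    rw [← hx _ _ htm, ← map_smul, ← e1]
    rfl
  have e3 := congrArg (hpull k (umap_pwr_P (a := a) ht.le m) q) e1
  rw [map_smul, hb t ht, smul_comm, ← e2] at e3
  rw [show hpull k (umap_pwr_P (a := a) ht.le m) q (cls (a0 _) (c0 k) f (hf _ hmt)) =
    pull (c0 k) (umap_pwr_P (a := a) ht.le m) q (cls (a0 _) (c0 k) f (hf _ hmt)) from rfl,
    pull_cls, cls_smul, cls_eq_cls] at e3
  exact e3

end Vale.Agent.P216.H941D
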