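import Vale.Agent.P216.H941D.Ow2
import Vale.Agent.P216.H941D.PwrNat
import Vale.Agent.P216.H285.Pow9
import Vale.Agent.P216.D337.Om1

/-!
# P216-D, weights of the power maps on the classes `om j` (3)

Non-vanishing of the classes `VO 1 b` on the based loops; the weights.
-/

open Finsupp Set BoundedContinuousFunction

namespace Vale.Agent.P216.H941D

open Vale.Agent.P216.Sl Vale.Agent.P216.PS Vale.Agent.P216.N929 Vale.Agent.P216.H977C
open Vale.Agent.P216.AS Vale.Agent.P216.H894 Vale.Agent.P216.H285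
open Vale.Agent.P216.B64 (HU hres hpull UMap OmegaOut)
open Vale.Agent.P216.H774D (pwr pwr_mem_P dist_pwr)

variable {k : Type} [Field k] {M : Type} [MetricSpace M] [CompactSpace M]

section

variable {n D : ℕ} (G : Geo M n) (τ : Tau k M n G.ρ₁)

/-- The classes on the loops at `x₀`: directly, or after a path to `y b`. -/
theorem VO_tf (hD : D + 1 = n) {N j : ℕ} (hN : 1 / ((N : ℝ) + 1) < (eo G τ j).1) {Dp : ℝ}
    (hDp : IsPi M Dp) (b : Bool) (c : ℕ) {l : List (ℝ →ᵇ M)} (hl : l.length = j * D + 1)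
    (hm : ∀ w ∈ l, w ∈ P G.x₀ G.x₀ c) :
    tf hDp G.x₀ (G.y b) (VO G τ N j b) c l = VO G τ N j b l := by
  have hn2 := G.hn
  have hD1 : 1 ≤ D := by omega
  have hln : l ≠ [] := by
    rintro rfl
    simp at hl
  have hv := vv_mem hDp G.x₀ (G.y b)
  have h1 := exp_VO G τ hD hN b (G.hy b) c Dp hDp.nonneg l [vv hDp G.x₀ (G.y b)]
    (by rw [hl]; rfl) hln (by simp) hm ⟨fun w hw => by
      rw [List.mem_singleton.1 hw]
      exact hv, fun w hw w' hw' => by
      rw [List.mem_singleton.1 hw, List.mem_singleton.1 hw', dist_self]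
      exact (eo G τ j).2⟩
  have h2 : H285.bc (c : ℝ) (VO G τ N j b) l [vv hDp G.x₀ (G.y b)] =
      tf hDp G.x₀ (G.y b) (VO G τ N j b) c l := by
    rw [H285.bc, Sh_point_right _ hln, ev_single, one_mul, List.map_map, tf,
      max_eq_left (Nat.cast_nonneg c)]
    rfl
  rw [← h2, h1, H285.tsum, MO, List.map_map, list_range_sum,
    Finset.sum_eq_single_of_mem 0 (Finset.mem_range.2 (by omega))]
  · rw [Function.comp_apply, mo]
    simp only [Nat.sub_zero, nb, VO_zero]
    rw [if_pos hl, one1, if_pos List.length_singleton, mul_one]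
  · intro i hi hi0
    have hi := Finset.mem_range.1 hi
    rw [Function.comp_apply, mo]
    simp only
    rw [if_neg]
    intro h3
    rw [hl] at h3
    have h4 : j * D = (j - i) * D := by omega
    have := Nat.eq_of_mul_eq_mul_right (by omega) h4
    omega

/-- `VO 1 b` is not exact on the based loops. -/
theorem VO_loop_ne (hD : D + 1 = n) {N : ℕ} (hN : 1 / ((N : ℝ) + 1) < (eo G τ 1).1) {Dp : ℝ}
    (hDp : IsPi M Dp) (b : Bool) {T : ℝ} (hT : 0 ≤ T)
    (hne : ¬ ExL (P G.x₀ (G.y b) T) D (N929.om G τ b 1)) {c : ℕ} (hc : T + Dp ≤ c) :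
    ¬ ExL (P G.x₀ G.x₀ (c : ℝ)) D (VO G τ N 1 b) := by
  intro hex
  have hn2 := G.hn
  have hcoc : ∀ T, CocL (P G.x₀ (G.y b) T) D (VO G τ N 1 b) := fun T => by
    have h1 := VO_coc G τ hD hN b (G.hy b) T
    rw [Nat.one_mul] at h1
    exact ⟨_, (eo G τ 1).2, h1⟩
  set T' : ℝ := c - Dp with hT'
  have hTT : T ≤ T' := by linarith
  have hT0 : 0 ≤ T' := hT.trans hTT
  have h1 : ExL (P G.x₀ (G.y b) T') D (VO G τ N 1 b) := by
    refine ex_of_TC (α := H901.tr (ℝ →ᵇ M)) (χ := H901.on k) (hD := hDp) (x₀ := G.x₀)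
      (e := G.y b) (f := VO G τ N 1 b) (hf := hcoc) hT0 ?_
    rw [TC, cls_eq_zero]
    have e1 : T' + Dp = c := by rw [hT']; ring
    rw [e1]
    refine exL_congr one_pos hex fun l hl hs => ?_
    exact (VO_tf G τ hD hN hDp b c (by rw [hl, Nat.one_mul]) hs.1)
  -- the classes with different meshes
  refine hne (ExL.mono ?_ (P_mono hTT))
  have hs := om_scl G τ b 0
  have hs' := eo_scl G τ 0 (!b)
  obtain ⟨ε, hε, H⟩ := ex_iff.2 h1
  have hε₁ := omε_pos G τ b 1
  have hε₂ := (eo G τ 1).2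
  refine ex_iff.1 ⟨min ε (min (omε G τ b 1) (eo G τ 1).1), lt_min hε (lt_min hε₁ hε₂),
    fun z hz => ?_⟩
  set η := min ε (min (omε G τ b 1) (eo G τ 1).1) with hη
  have hη0 : 0 < η := lt_min hε (lt_min hε₁ hε₂)
  obtain ⟨ι, i1, i2⟩ := Sg.exists_seg' k hT0 hη0
  have e1 := stp_eval (g := one1 k (ℝ →ᵇ M)) (x₀ := G.x₀) τ G.seg G.hr G.hrρ G.hn
    (m := D) (d := 0) (by omega) hs (G.hy b) (fun T => coc_one1 _ _) (half_pos hε₁)
    (half_lt_self hε₁) hT0 le_rfl hη0 ((min_le_right _ _).trans (min_le_left _ _)) hz ⟨i1, i2⟩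
  have e2 := stp_eval (g := one1 k (ℝ →ᵇ M)) (x₀ := G.x₀) τ G.seg G.hr G.hrρ G.hn
    (m := D) (d := 0) (by omega) hs' (G.hy b) (fun T => coc_one1 _ _)
    (by positivity : (0:ℝ) < 1 / ((N : ℝ) + 1)) hN hT0 le_rfl hη0
    ((min_le_right _ _).trans (min_le_right _ _)) hz ⟨i1, i2⟩
  have e3 := H z (hz.mono le_rfl (min_le_left _ _))
  rw [om_succ, om_zero, e1, ← e2]
  exact e3

/-- One fine cycle which detects both classes. -/
theorem exists_bothO {N s : ℕ} (hne : ∀ b, ¬ ExL (P G.x₀ G.x₀ (s : ℝ)) D (VO G τ N 1 b))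
    {δ : ℝ} (hδ : 0 < δ) :
    ∃ h, Cy (P G.x₀ G.x₀ (s : ℝ)) δ D h ∧ ∀ b, ev (VO G τ N 1 b) h ≠ 0 := by
  obtain ⟨h₀, c₀, e₀⟩ := not_ex_iff.1 (hne false) δ hδ
  obtain ⟨h₁, c₁, e₁⟩ := not_ex_iff.1 (hne true) δ hδ
  by_cases a₀ : ev (VO G τ N 1 true) h₀ = 0
  · by_cases a₁ : ev (VO G τ N 1 false) h₁ = 0
    · refine ⟨h₀ + h₁, cy_add c₀ c₁, fun b => ?_⟩
      cases b
      · rwa [map_add, a₁, add_zero]
      · rwa [map_add, a₀, zero_add]
    · exact ⟨h₁, c₁, fun b => by cases b <;> assumption⟩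
  · exact ⟨h₀, c₀, fun b => by cases b <;> assumption⟩

/-- `x` is a line of families with eigenvalue `b`. -/
def EigO (D m j : ℕ) (a : k) : Prop :=
  ∀ f : List (ℝ →ᵇ M) → k, (∀ T, 0 < T → CocL (P G.x₀ G.x₀ T) (j * D) f) → ∀ t, 0 < t →
    ExL (P G.x₀ G.x₀ t) (j * D) fun l => f (l.map (pwr t m)) - a * f l

theorem VO_cocL0 (hD : D + 1 = n) {N j : ℕ} (hN : 1 / ((N : ℝ) + 1) < (eo G τ j).1)
    (b : Bool) (T : ℝ) : CocL (P G.x₀ G.x₀ T) (j * D) (VO G τ N j b) :=
  ⟨_, (eo G τ j).2, VO_coc G τ hD hN b (G.hx _) T⟩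

/-- **The weights of the power maps.** -/
theorem eig_eq (hD : D + 1 = n) {s : ℕ}
    (hne : ∀ N : ℕ, 1 / ((N : ℝ) + 1) < (eo G τ 1).1 → ∀ b,
      ¬ ExL (P G.x₀ G.x₀ (s : ℝ)) D (VO G τ N 1 b))
    (E : ∀ m : ℕ, 1 ≤ m → ∀ j, ∃ a : k, EigO G D m j a) :
    ∀ m : ℕ, 1 ≤ m → ∀ (j : ℕ) (a : k), EigO G D m j a → a = (m : k) ^ wt D j := by
  have hn2 := G.hn
  have hD1 : 1 ≤ D := by omega
  have hs0 : 0 < s := by
    rcases Nat.eq_zero_or_pos s with h0 | h0
    · exfalso
      subst h0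
      obtain ⟨N, hN⟩ := exists_nat_one_div_lt (eo G τ 1).2
      refine hne N hN false ⟨fun _ => 0, fun _ _ => rfl, 1, one_pos, fun l hl hs => ?_⟩
      rw [PS.dl_zero_fun]
      -- all loops of duration `0` are constant
      have hl' : l = List.replicate (D + 1) (cst G.x₀) := by
        rw [List.eq_replicate_iff]
        refine ⟨hl, fun w hw => ?_⟩
        have hw' := hs.1 w hw
        rw [Nat.cast_zero] at hw'
        ext u
        rw [cst_apply]
        rcases le_total u 0 with hu | hu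
        · exact eq_left hw' hu
        · exact eq_right hw' hu
      refine VO_nrm G τ N 1 false _ fun hc => ?_
      rw [hl', show D + 1 = (D - 1) + 1 + 1 by omega, List.replicate_succ, List.replicate_succ,
        List.isChain_cons_cons] at hc
      exact hc.1 rfl
    · exact h0
  -- cycles detecting the classes
  have det : ∀ j N : ℕ, 1 / ((N : ℝ) + 1) < (eo G τ (j + 1)).1 → ∀ δ > 0,
      ∃ h : Ch k (ℝ →ᵇ M), Cy (P G.x₀ G.x₀ s) (eo G τ j).1 D h ∧
        Cy (P G.x₀ G.x₀ (((j + 1) * s : ℕ) : ℝ)) δ (j * D) (pw G.x₀ s h j) ∧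
        ∀ b, ev (VO G τ N 1 b) h ≠ 0 := by
    intro j N hN δ hδ
    have hN1 : 1 / ((N : ℝ) + 1) < (eo G τ 1).1 := hN.trans_le (eo_anti G τ (by omega))
    obtain ⟨h, hh, hb⟩ := exists_bothO G τ (hne N hN1) (lt_min hδ (eo G τ j).2)
    refine ⟨h, hh.mono le_rfl (min_le_right _ _), ?_, hb⟩
    have h1 := pw_cy (Nat.cast_nonneg s) hD1 hδ (hh.mono le_rfl (min_le_left _ _)) j
    refine h1.mono ?_ le_rfl
    refine P_mono ?_
    push_cast
    nlinarith [(Nat.cast_nonneg s : (0:ℝ) ≤ s)]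
  intro m hm
  induction m, hm using Nat.le_induction with
  | base =>
    intro j a ha
    obtain ⟨N, hN⟩ := exists_nat_one_div_lt (eo G τ (j + 1)).2
    have hNj : 1 / ((N : ℝ) + 1) < (eo G τ j).1 := hN.trans_le (eo_succ G τ j)
    have hpos : (0 : ℝ) < (((j + 1) * s : ℕ) : ℝ) := by
      exact_mod_cast Nat.mul_pos (Nat.succ_pos j) hs0
    have h1 := ha (VO G τ N j false) (fun T _ => VO_cocL0 G τ hD hNj false T) _ hpos
    obtain ⟨δ, hδ, H⟩ := ex_iff.2 h1
    obtain ⟨h, hh, hc, hb⟩ := det j N hN δ hδ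
    have h2 := H _ hc
    have h3 : ev (fun l => VO G τ N j false (l.map (pwr (((j + 1) * s : ℕ) : ℝ) 1)) -
        a * VO G τ N j false l) (pw G.x₀ s h j) =
        ev (fun l => (1 - a) * VO G τ N j false l) (pw G.x₀ s h j) := by
      refine ev_congr (fun l hl => ?_) hc.1
      have h4 : l.map (pwr (((j + 1) * s : ℕ) : ℝ) 1) = l := by
        conv_rhs => rw [← List.map_id l]
        refine List.map_congr_left fun w hw => ?_
        have hw' := hl.2.1 w hw
        rw [pwr_succ', Nat.cast_zero, zero_mul]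
        have h0 : pwr (((j + 1) * s : ℕ) : ℝ) 0 w = cst G.x₀ := by
          change cst (w 0) = _
          rw [eq_left hw' le_rfl]
        rw [h0, cst_cat hw']
        rfl
      rw [h4]
      ring
    rw [h3, ev_smul_fun, ev_pwO G τ hD hNj s hh le_rfl false] at h2
    have h5 := (mul_eq_zero.1 h2).resolve_right (pp_ne hb j false)
    rw [Nat.cast_one, one_pow]
    exact (sub_eq_zero.1 h5).symm
  | succ m hm ih =>
    intro j a ha
    obtain ⟨N, hN⟩ := exists_nat_one_div_lt (eo G τ (j + 1)).2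
    have hNi : ∀ i, i ≤ j → 1 / ((N : ℝ) + 1) < (eo G τ i).1 := fun i hi =>
      hN.trans_le (eo_anti G τ (by omega))
    have hNj := hNi j le_rfl
    have hpos : (0 : ℝ) < (((j + 1) * s : ℕ) : ℝ) := by
      exact_mod_cast Nat.mul_pos (Nat.succ_pos j) hs0
    set c : ℕ := (j + 1) * s with hc
    -- the power map on the class
    have h1 := ha (VO G τ N j false) (fun T _ => VO_cocL0 G τ hD hNj false T) _ hpos
    have h2 := exL_pwr (exp_VO G τ hD hNj false (G.hx _)) (eo G τ j).2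
      (fun T => VO_coc G τ hD hNj false (G.hx _) T) (fun x hx => MO_deg G τ hx) c m
    -- the terms
    have h3 : ∀ i ∈ List.range (j + 1), ∃ δ > 0, ∀ z : Ch k (ℝ →ᵇ M),
        Cy (P G.x₀ G.x₀ (c : ℝ)) δ (j * D) z →
        ev (N929.cup ((j - i) * D) (fun l' => VO G τ N (j - i) (nb i false)
          (l'.map (pwr (c : ℝ) m))) (VO G τ N i false)) z =
        (m : k) ^ wt D (j - i) * ev (N929.cup ((j - i) * D)
          (VO G τ N (j - i) (nb i false)) (VO G τ N i false)) z := by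
      intro i hi
      have hi := List.mem_range.1 hi
      obtain ⟨a', ha'⟩ := E m hm (j - i)
      have e0 := ih (j - i) a' ha'
      have e1 := ha' (VO G τ N (j - i) (nb i false))
        (fun T _ => VO_cocL0 G τ hD (hNi _ (by omega)) _ T) _ hpos
      have e2 := exL_cup_left0 e1 (VO_cocL0 G τ hD (hNi i (by omega)) false (c : ℝ))
      have e3 : i * D + (j - i) * D = j * D := by
        rw [← Nat.add_mul]
        congr 1
        omega
      rw [e3] at e2
      obtain ⟨δ, hδ, H⟩ := ex_iff.2 e2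
      refine ⟨δ, hδ, fun z hz => ?_⟩
      have e4 := H z hz
      have e5 : N929.cup ((j - i) * D) (fun l => VO G τ N (j - i) (nb i false)
          (l.map (pwr (c : ℝ) m)) - a' * VO G τ N (j - i) (nb i false) l) (VO G τ N i false) =
          fun l => N929.cup ((j - i) * D) (fun l' => VO G τ N (j - i) (nb i false)
            (l'.map (pwr (c : ℝ) m))) (VO G τ N i false) l +
          (-a') * N929.cup ((j - i) * D) (VO G τ N (j - i) (nb i false))
            (VO G τ N i false) l := by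
        funext l
        simp only [N929.cup]
        ring
      rw [e5, ev_add_fun, ev_smul_fun] at e4
      rw [← e0]
      linear_combination e4
    obtain ⟨δ₁, hδ₁, H₁⟩ := ex_iff.2 h1
    obtain ⟨δ₂, hδ₂, H₂⟩ := ex_iff.2 h2
    obtain ⟨δ₃, hδ₃, H₃⟩ := exists_delta (List.range (j + 1)) _
      (fun i δ δ' _ hδ H z hz => H z (hz.mono le_rfl hδ)) h3
    set δ := min δ₁ (min δ₂ δ₃) with hδ
    have hδ0 : 0 < δ := lt_min hδ₁ (lt_min hδ₂ hδ₃)
    obtain ⟨h, hh, hcy, hb⟩ := det j N hN δ hδ0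
    have v₁ := H₁ _ (hcy.mono le_rfl (min_le_left _ _))
    have v₂ := H₂ _ (hcy.mono le_rfl ((min_le_right _ _).trans (min_le_left _ _)))
    have v₃ := fun i hi => H₃ i hi _ (hcy.mono le_rfl ((min_le_right _ _).trans
      (min_le_right _ _)))
    set w : Bool → k := fun b => ev (VO G τ N 1 b) h with hw
    have v₄ : ∀ i ∈ Finset.range (j + 1), ((fun x : Tm k M => ev (N929.cup x.a (fun l' => x.f
        (l'.map (pwr (c : ℝ) m))) x.g) (pw G.x₀ s h j)) ∘ mo G τ N D j false) i =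
        (((m : ℤ) ^ wt D (j - i) * sb D (j - i) i : ℤ) : k) * pp w j false := by
      intro i hi
      have hi := Finset.mem_range.1 hi
      have u₁ := v₃ i (List.mem_range.2 hi)
      have u₂ := ev_cup_pwO G τ hD hNj s hh j (j - i) i (nb i false) false (by omega) le_rfl
      have u₃ : pp w j false = pp w i false * pp w (j - i) (nb i false) := by
        rw [← pp_add]
        congr 1
        omega
      rw [u₂] at u₁
      have u₄ : ((fun x : Tm k M => ev (N929.cup x.a (fun l' => x.f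
        (l'.map (pwr (c : ℝ) m))) x.g) (pw G.x₀ s h j)) ∘ mo G τ N D j false) i =
        ev (N929.cup ((j - i) * D) (fun l' => VO G τ N (j - i) (nb i false)
          (l'.map (pwr (c : ℝ) m))) (VO G τ N i false)) (pw G.x₀ s h j) := rfl
      rw [u₄, u₁, u₃]
      push_cast
      ring
    rw [ev_fun_sub, ev_list_sum (MO G τ N D j false) (fun (x : Tm k M) =>
      N929.cup x.a (fun l' => x.f (l'.map (pwr (c : ℝ) m))) x.g), MO, List.map_map,
      list_range_sum, Finset.sum_congr rfl v₄, ← Finset.sum_mul] at v₂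
    have v₅ : ev (fun l => VO G τ N j false (l.map (pwr (c : ℝ) (m + 1))))
        (pw G.x₀ s h j) = a * pp w j false := by
      have e1 : (fun l => VO G τ N j false (l.map (pwr (c : ℝ) (m + 1))) -
        a * VO G τ N j false l) = fun l => VO G τ N j false (l.map (pwr (c : ℝ) (m + 1))) -
        (fun l => a * VO G τ N j false l) l := rfl
      rw [e1, ev_fun_sub, ev_smul_fun, ev_pwO G τ hD hNj s hh le_rfl false] at v₁
      exact sub_eq_zero.1 v₁
    have v₆ : (∑ i ∈ Finset.range (j + 1),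
        (((m : ℤ) ^ wt D (j - i) * sb D (j - i) i : ℤ) : k)) =
        ((m + 1 : ℕ) : k) ^ wt D j := by
      rw [← Int.cast_sum, sb_sum]
      push_cast
      rfl
    rw [v₆, v₅, ← sub_mul] at v₂
    exact sub_eq_zero.1 ((mul_eq_zero.1 v₂).resolve_right (pp_ne hb j false))

end

end Vale.Agent.P216.H941D
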