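import Vale.Agent.P216.H941D.Ow4

/-!
# P216-D, weights of the power maps on the classes `om j` (5): `[GOm1]`, literally
-/

namespace Vale.Agent.P216.H941D

open Vale.Agent.P216.H977C
open Vale.Agent.P216.B64 (OmegaOut)
open Vale.Agent.P216.H893D (OmegaPwrE OmegaPwrO)

/-- **[OMEGA]** with the weights of the power maps, `h = 1` (`D239.GOm1`). -/
theorem gOm1 : ∀ {Kf : Fld} {M : Type} [MetricSpace M] [CompactSpace M] [SimplyConnectedSpace M]
    {n : ℕ}, (∀ (k : Type) [Field k], Kf k → (2 : k) ≠ 0) → ThomK Kf M n →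
    D337.MidOneK Kf M n →
    ∃ (x₀ : M) (B : ℝ), 0 < B ∧ ∀ (k : Type) [Field k], Kf k →
      ∃ O : OmegaOut M (n - 1) x₀ B k, ∀ m : ℕ, 1 ≤ m →
        (Even n → OmegaPwrO O m) ∧ (Odd n → OmegaPwrE O m) := by
  intro Kf M _ _ _ n _ hT hM
  obtain ⟨x₀, B, hB, H⟩ := omegaOnePwK hT hM
  refine ⟨x₀, B, hB, fun k _ hk => ?_⟩
  obtain ⟨O, hO⟩ := H k hk
  exact ⟨O, fun m hm => ⟨fun h => (hO m hm).2 (Nat.even_iff.1 h),
    fun h => (hO m hm).1 (Nat.odd_iff.1 h)⟩⟩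

end Vale.Agent.P216.H941D
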