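import Vale.Agent.P216.AS.TotMap
import Vale.Agent.P216.H609.Op
import Vale.Agent.P216.DV706.Nat

/-!
# Semilinear maps of complexes with `Z/p`-action: `g' φ = φ g ^ l` (block [LIFT-W2] of P216-D)

For the power maps `γ ↦ γ (m ·)` of loop spaces, `l m = 1 (mod p)`.

* `SLin G G' l φ` : `φ` a chain map with `g' φ = φ g ^ l`, `nm' φ = φ nm`;
* `SLin.Phi` : the chain map of total complexes, `l ^ (i / 2) φ` resp.
  `l ^ (i / 2) φ (1 + g + ... + g ^ (l - 1))` in column `i = n - q`;
* on cohomology: `mF`, `mE`, `mH`: `mF u = l u mF`, `δ mE = l mF δ`, `b mE = mH b`,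
  `mE a = l a mH`.
-/

namespace Vale.Agent.P216.H941D

open Vale.Agent.P216.AS Vale.Agent.P216.H609 Finset

variable {k : Type} [Field k] {C C' : Amb k} {G : GCx C} {G' : GCx C'}

section Ops

variable (G : GCx C)

/-- `g` as an endomorphism -/
def gE (n : ℕ) : Module.End k (C.K n) := G.g n

/-- `1 + g + ... + g ^ (l - 1)` -/
def NN (l n : ℕ) : Module.End k (C.K n) := nm l (gE G n)

/-- `∑ a < l, (1 + g + ... + g ^ (a - 1))` -/
def MM (l n : ℕ) : Module.End k (C.K n) := ∑ a ∈ range l, NN G a n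

theorem d_pow (a n : ℕ) (x : C.K n) :
    C.d n ((gE G n ^ a) x) = (gE G (n + 1) ^ a) (C.d n x) := by
  induction a with
  | zero => rfl
  | succ a ih =>
    rw [pow_succ', pow_succ', Module.End.mul_apply, Module.End.mul_apply, ← ih]
    exact G.d_g n _

theorem NN_apply (l n : ℕ) (x : C.K n) : NN G l n x = ∑ a ∈ range l, (gE G n ^ a) x := by
  rw [NN, nm, LinearMap.sum_apply]

theorem MM_apply (l n : ℕ) (x : C.K n) : MM G l n x = ∑ a ∈ range l, NN G a n x := by
  rw [MM, LinearMap.sum_apply]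

theorem d_NN (l n : ℕ) (x : C.K n) : C.d n (NN G l n x) = NN G l (n + 1) (C.d n x) := by
  rw [NN_apply, NN_apply, map_sum]
  exact sum_congr rfl fun a _ => d_pow G a n x

theorem d_MM (l n : ℕ) (x : C.K n) : C.d n (MM G l n x) = MM G l (n + 1) (C.d n x) := by
  rw [MM_apply, MM_apply, map_sum]
  exact sum_congr rfl fun a _ => d_NN G a n x

/-- `N_l (x - g x) = x - g ^ l x` -/
theorem NN_sub (l n : ℕ) (x : C.K n) : NN G l n (x - G.g n x) = x - (gE G n ^ l) x := by
  have h := congrArg (fun T : Module.End k (C.K n) => T x) (geom_mul (gE G n) l)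
  exact h

theorem NN_g (l n : ℕ) (x : C.K n) : NN G l n (G.g n x) = G.g n (NN G l n x) := by
  have h : Commute (NN G l n) (gE G n) :=
    Commute.sum_left _ _ _ fun i _ => (Commute.refl (gE G n)).pow_left i
  exact congrArg (fun T : Module.End k (C.K n) => T x) h.eq

/-- `M_l (x - g x) = l x - N_l x` -/
theorem MM_sub (l n : ℕ) (x : C.K n) :
    MM G l n (x - G.g n x) = (l : k) • x - NN G l n x := by
  rw [MM_apply, sum_congr rfl fun a _ => NN_sub G a n x, sum_sub_distrib, sum_const, card_range,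
    ← NN_apply, Nat.cast_smul_eq_nsmul]

theorem nm_pow (a n : ℕ) (x : C.K n) : G.nm n ((gE G n ^ a) x) = G.nm n x := by
  induction a with
  | zero => rfl
  | succ a ih =>
    rw [pow_succ', Module.End.mul_apply]
    exact (G.nm_g n _).trans ih

theorem nm_NN (l n : ℕ) (x : C.K n) : G.nm n (NN G l n x) = (l : k) • G.nm n x := by
  rw [NN_apply, map_sum, sum_congr rfl fun a _ => nm_pow G a n x, sum_const, card_range,
    Nat.cast_smul_eq_nsmul]

theorem nm_MM (l n : ℕ) (x : C.K n) :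
    G.nm n (MM G l n x) = (∑ a ∈ range l, (a : k)) • G.nm n x := by
  rw [MM_apply, map_sum, sum_smul]
  exact sum_congr rfl fun a _ => nm_NN G a n x

theorem pow_mem {S : Sub C} (hS : G.Stable S) (a : ℕ) {n : ℕ} {x : C.K n} (hx : x ∈ S.S n) :
    (gE G n ^ a) x ∈ S.S n := by
  induction a with
  | zero => exact hx
  | succ a ih =>
    rw [pow_succ', Module.End.mul_apply]
    exact hS.g_mem n _ ih

theorem NN_mem {S : Sub C} (hS : G.Stable S) (l : ℕ) {n : ℕ} {x : C.K n} (hx : x ∈ S.S n) :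
    NN G l n x ∈ S.S n := by
  rw [NN_apply]
  exact Submodule.sum_mem _ fun a _ => pow_mem G hS a hx

theorem MM_mem {S : Sub C} (hS : G.Stable S) (l : ℕ) {n : ℕ} {x : C.K n} (hx : x ∈ S.S n) :
    MM G l n x ∈ S.S n := by
  rw [MM_apply]
  exact Submodule.sum_mem _ fun a _ => NN_mem G hS a hx

end Ops

/-- `φ` is a chain map with `g' φ = φ g ^ l` and `nm' φ = φ nm`. -/
structure SLin (G : GCx C) (G' : GCx C') (l : ℕ) (φ : ∀ n, C.K n →ₗ[k] C'.K n) : Prop where
  d : ∀ n x, C'.d n (φ n x) = φ (n + 1) (C.d n x)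
  g : ∀ n x, G'.g n (φ n x) = φ n ((gE G n ^ l) x)
  nm : ∀ n x, G'.nm n (φ n x) = φ n (G.nm n x)

namespace SLin

variable {l : ℕ} {φ : ∀ n, C.K n →ₗ[k] C'.K n} (h : SLin G G' l φ)

variable (G l) in
/-- `1` on the components `n + q` even, `N_l` on the others -/
def WW (n q : ℕ) : C.K q →ₗ[k] C.K q := if (n + q) % 2 = 0 then LinearMap.id else NN G l q

theorem WW_even {n q : ℕ} (hq : (n + q) % 2 = 0) (x : C.K q) : WW G l n q x = x := by
  rw [WW, if_pos hq]; rfl

theorem WW_odd {n q : ℕ} (hq : (n + q) % 2 = 1) (x : C.K q) : WW G l n q x = NN G l q x := by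
  rw [WW, if_neg (by omega)]

variable (G l φ) in
/-- the components of the map of total complexes -/
def cp (n q : ℕ) : C.K q →ₗ[k] C'.K q := (l : k) ^ ((n - q) / 2) • φ q ∘ₗ WW G l n q

theorem cp_even {n q : ℕ} (hq : (n + q) % 2 = 0) (x : C.K q) :
    cp G l φ n q x = (l : k) ^ ((n - q) / 2) • φ q x := by
  rw [cp, LinearMap.smul_apply, LinearMap.comp_apply, WW_even hq]

theorem cp_odd {n q : ℕ} (hq : (n + q) % 2 = 1) (x : C.K q) :
    cp G l φ n q x = (l : k) ^ ((n - q) / 2) • φ q (NN G l q x) := by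
  rw [cp, LinearMap.smul_apply, LinearMap.comp_apply, WW_odd hq]

variable (G l φ) in
/-- **the map of total complexes** -/
def Phi (n : ℕ) : (∀ q, C.K q) →ₗ[k] (∀ q, C'.K q) where
  toFun c q := cp G l φ n q (c q)
  map_add' c c' := by funext q; simp
  map_smul' a c := by funext q; simp

theorem Phi_apply (n : ℕ) (c : ∀ q, C.K q) (q : ℕ) :
    Phi G l φ n c q = cp G l φ n q (c q) := rfl

include h in
theorem d_cp (n q : ℕ) (x : C.K q) :
    C'.d q (cp G l φ n q x) = cp G l φ (n + 1) (q + 1) (C.d q x) := by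
  have e : n + 1 - (q + 1) = n - q := by omega
  rcases Nat.mod_two_eq_zero_or_one (n + q) with hq | hq
  · rw [cp_even hq, cp_even (by omega), map_smul, h.d, e]
  · rw [cp_odd hq, cp_odd (by omega), map_smul, h.d, d_NN, e]

include h in
/-- the horizontal part -/
theorem θ_cp {n q : ℕ} (hqn : q ≤ n) (x : C.K q) :
    G'.θ (n + 1 + q) q (cp G l φ n q x) = cp G l φ (n + 1) q (G.θ (n + 1 + q) q x) := by
  rcases Nat.mod_two_eq_zero_or_one (n + q) with hq | hq
  · rw [cp_even hq, cp_odd (by omega), G.θ_odd (by omega), G'.θ_odd (by omega), map_smul,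
      ← smul_sub, h.g, ← map_sub, NN_sub, show (n + 1 - q) / 2 = (n - q) / 2 by omega]
  · rw [cp_odd hq, cp_even (by omega), G.θ_even (by omega), G'.θ_even (by omega), map_smul,
      h.nm, nm_NN, map_smul, smul_smul, ← pow_succ,
      show (n + 1 - q) / 2 = (n - q) / 2 + 1 by omega]

include h in
/-- `Phi` is a chain map. -/
theorem D_Phi {n : ℕ} {c : ∀ q, C.K q} (hc : ∀ q, n < q → c q = 0) :
    G'.D n (Phi G l φ n c) = Phi G l φ (n + 1) (G.D n c) := by
  funext q
  cases q with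
  | zero =>
    rw [GCx.D_zero, Phi_apply, Phi_apply, GCx.D_zero]
    exact h.θ_cp (Nat.zero_le n) (c 0)
  | succ q =>
    rw [GCx.D_succ, Phi_apply, Phi_apply, Phi_apply, GCx.D_succ, map_add, map_smul, h.d_cp]
    congr 2
    rcases Nat.lt_or_ge n (q + 1) with h1 | h1
    · rw [hc (q + 1) h1, map_zero, map_zero, map_zero, map_zero]
    · exact h.θ_cp h1 (c (q + 1))

end SLin

end Vale.Agent.P216.H941D
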