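import Vale.Agent.P216.H941D.PowS
import Vale.Agent.P216.DV706.WOpOf

/-!
# The operator `WOp` of a power map (block [LIFT-W2] of P216-D)

`RotS.wopS` : a map `f : X s → X t` commuting with the deck transformation, with
`f (rot p x) = (rot p) ^ l (f x)`, `l ≠ 0` in `k`, acts on the Gysin sequences:
`A u = l u A`, `A d = l⁻¹ d B`.
`RotS.Pow R m` : the power map `ψ_m : X s → X (m s)`; `Pow.wop` : for `p ∤ m`, with `μ = m` in `k`,
the operator `WOp μ⁻¹ μ (m s) s`.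
-/

open Set

namespace Vale.Agent.P216.RotS

open AS B633 DV Circ.PSt

section

variable {Λ : Type} [MetricSpace Λ] {S : GSys Λ} (R : RotS S)
  (k : Type) [Field k] {p : ℕ} [CharP k p] (hp : p.Prime) (h2 : 2 < p)
  {s t : ℝ} {f : Λ → Λ} (hf : IsMap (fun _ : Unit => S.τ) (fun _ : Unit => S.τ) (S.X s) (S.X t) f)
  {l : ℕ} (hr : ∀ x, f (S.rot p x) = (S.rot p)^[l] (f x)) (hl : (l : k) ≠ 0)

omit R in
include hf hr hl in
theorem smor : H941D.SMor (S.P k p hp.pos t) (S.P k p hp.pos s) l (pbK k f) := by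
  have : Fact p.Prime := ⟨hp⟩
  have h := hf.isMor_Cc (χ := fun _ : Unit => (-1 : k)) Subset.rfl hf.mapsX
  exact
    { toSLin := H941D.slin_pull (S.sym k p hp.pos) (S.sym k p hp.pos) hr hl
      mapS := fun hx => h.mapS hx
      mapT := fun hx => h.mapT hx }

include hr hl in
theorem scomp : H941D.SComp (R.circ k p hp.pos h2) (R.circ k p hp.pos h2) l (pbK k f) := by
  have : Fact p.Prime := ⟨hp⟩
  exact H941D.scomp_pull (S.sym k p hp.pos) (S.sym k p hp.pos) hr hl h2 _ _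

/-- the map on `F` -/
noncomputable def psiF (n : ℕ) : R.F k hp h2 t n →ₗ[k] R.F k hp h2 s n :=
  H941D.Psi (smor k hp hf hr hl) (R.pst k p hp.pos h2 t) (R.pst k p hp.pos h2 s)
    (R.scomp k hp h2 hr hl) hl n

/-- **The operator of a map with `f (rot p x) = (rot p) ^ l (f x)`.** -/
noncomputable def wopS (hfin : FinAt S k) :
    (R.tsys k hp h2 hfin).WOp (l : k) (l : k)⁻¹ t s where
  A n := R.psiF k hp h2 hf hr hl n
  B n := pull (fun _ : Unit => (-1 : k)) hf n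
  hπ n x := (H941D.πF_Psi (smor k hp hf hr hl) (R.pst k p hp.pos h2 t)
    (R.pst k p hp.pos h2 s) (R.scomp k hp h2 hr hl) hl n x).symm
  hu n x := H941D.Psi_uF (smor k hp hf hr hl) (R.pst k p hp.pos h2 t)
    (R.pst k p hp.pos h2 s) (R.scomp k hp h2 hr hl) hl n x
  hd n x := H941D.Psi_dF (smor k hp hf hr hl) (R.pst k p hp.pos h2 t)
    (R.pst k p hp.pos h2 s) (R.scomp k hp h2 hr hl) hl n x

@[simp] theorem wopS_B (hfin : FinAt S k) (n : ℕ) (x : S.V k t n) :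
    (R.wopS k hp h2 hf hr hl hfin).B n x = pull (fun _ : Unit => (-1 : k)) hf n x := rfl

end

section

variable {Λ : Type} [MetricSpace Λ] {S : GSys Λ}

/-- The power map `ψ_m`. -/
structure Pow (R : RotS S) (m : ℕ) where
  f : Λ → Λ
  rot : ∀ a x, R.R a (f x) = f (R.R (m * a) x)
  tau : ∀ x, f (S.τ x) = S.τ (f x)
  theta : ∀ x, f (S.θ x) = S.θ (f x)
  mem : ∀ s, 0 ≤ s → MapsTo f (S.X s) (S.X (m * s))
  cont : ∀ s, 0 ≤ s → ContinuousOn f (S.X s)

variable {R : RotS S}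

theorem R_nat (R : RotS S) (n : ℕ) (x : Λ) : R.R n x = x := by
  have h1 : R.R 1 x = x := by
    have h := R.rot 1 one_pos x
    rw [Nat.cast_one, div_one] at h
    rw [h]
    exact S.rot_pow 1 one_pos x
  induction n with
  | zero => rw [Nat.cast_zero, R.zero]
  | succ n ih => rw [Nat.cast_succ, ← R.add, h1, ih]

theorem rot_iterate (R : RotS S) {p : ℕ} (hp : 0 < p) (l : ℕ) (x : Λ) :
    (S.rot p)^[l] x = R.R (l * (1 / p : ℝ)) x := by
  induction l with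
  | zero => rw [Function.iterate_zero, Nat.cast_zero, zero_mul, R.zero]; rfl
  | succ l ih =>
    rw [Function.iterate_succ_apply', ih, ← R.rot p hp, R.add]
    congr 1
    push_cast
    ring

variable {m : ℕ} (W : R.Pow m)

/-- `ψ_m (rot p x) = (rot p) ^ l (ψ_m x)`, `m l = 1 + p j` -/
theorem Pow.rotp {p : ℕ} (hp : 0 < p) {l j : ℕ} (h : m * l = 1 + p * j) (x : Λ) :
    W.f (S.rot p x) = (S.rot p)^[l] (W.f x) := by
  have hp' : (p : ℝ) ≠ 0 := Nat.cast_ne_zero.2 hp.ne'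
  have h' : (m : ℝ) * l = 1 + p * j := by exact_mod_cast h
  rw [R.rot_iterate hp, W.rot, ← R.rot p hp]
  have e : (m : ℝ) * (l * (1 / p)) = 1 / p + (j : ℕ) := by
    field_simp
    linear_combination h'
  rw [e, ← R.add, R.R_nat]

theorem Pow.isMap {s : ℝ} (hs : 0 ≤ s) :
    IsMap (fun _ : Unit => S.τ) (fun _ : Unit => S.τ) (S.X s) (S.X (m * s)) W.f :=
  IsMap.of_continuousOn (S.compact _) (W.cont s hs) (W.mem s hs) fun _ x _ => W.tau x

variable (k : Type) [Field k] {p : ℕ} [CharP k p] (hp : p.Prime) (h2 : 2 < p)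

theorem exists_inv (hp : p.Prime) {m : ℕ} (hm : ¬ p ∣ m) : ∃ l j, m * l = 1 + p * j := by
  have : Fact p.Prime := ⟨hp⟩
  have hm0 : (m : ZMod p) ≠ 0 := fun h => hm ((ZMod.natCast_eq_zero_iff m p).1 h)
  refine ⟨((m : ZMod p)⁻¹).val + p, ?_⟩
  have h1 : ((m * (((m : ZMod p)⁻¹).val + p) : ℕ) : ZMod p) = ((1 : ℕ) : ZMod p) := by
    push_cast
    rw [ZMod.natCast_zmod_val, CharP.cast_eq_zero (ZMod p) p, add_zero, mul_inv_cancel₀ hm0]
  have hm1 : 0 < m := Nat.pos_of_ne_zero fun h => hm (h ▸ dvd_zero p)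
  have h3 : 1 ≤ m * (((m : ZMod p)⁻¹).val + p) := Nat.mul_pos hm1 (by have := hp.pos; omega)
  have h2 := (ZMod.natCast_eq_natCast_iff' _ _ _).1 h1
  have h4 : p ∣ m * (((m : ZMod p)⁻¹).val + p) - 1 := (Nat.modEq_iff_dvd' h3).1 h2.symm
  obtain ⟨j, hj⟩ := h4
  exact ⟨j, by omega⟩

theorem inv_cast {m l j : ℕ} (h : m * l = 1 + p * j) : (m : k) * l = 1 := by
  have h1 : ((m * l : ℕ) : k) = ((1 + p * j : ℕ) : k) := by rw [h]
  push_cast at h1
  rw [CharP.cast_eq_zero k p, zero_mul, add_zero] at h1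
  exact h1

/-- change of the constants -/
def wopCongr {crit : Set ℝ} {T : TSys k p crit} {α δ α' δ' : k} {φ s : ℝ} (W' : T.WOp α δ φ s)
    (h : α = α') (h' : δ = δ') : T.WOp α' δ' φ s where
  A := W'.A
  B := W'.B
  hπ := W'.hπ
  hu := h ▸ W'.hu
  hd := h' ▸ W'.hd

/-- **The operator of the power map**: `A u = m⁻¹ u A`, `A d = m d B`, `B = ψ_m^*`. -/
theorem Pow.exists_wop (hm : ¬ p ∣ m) (hfin : FinAt S k) {s : ℝ} (hs : 0 ≤ s) :
    ∃ W' : (R.tsys k hp h2 hfin).WOp (m : k)⁻¹ (m : k) (m * s) s,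
      ∀ n x, W'.B n x = pull (fun _ : Unit => (-1 : k)) (W.isMap hs) n x := by
  obtain ⟨l, j, h⟩ := exists_inv hp hm
  have h1 : (m : k) * l = 1 := inv_cast k h
  have hl : (l : k) ≠ 0 := right_ne_zero_of_mul_eq_one h1
  have e1 : (m : k)⁻¹ = l := (eq_inv_of_mul_eq_one_right h1).symm
  have e2 : (l : k)⁻¹ = m := (eq_inv_of_mul_eq_one_left h1).symm
  have hr : ∀ x, W.f (S.rot p x) = (S.rot p)^[l] (W.f x) := W.rotp hp.pos h
  exact ⟨wopCongr k (R.wopS k hp h2 (W.isMap hs) hr hl hfin) e1.symm e2, fun _ _ => rfl⟩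

end

end Vale.Agent.P216.RotS
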