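import Vale.Agent.P216.H941D.Psi
import Vale.Agent.P216.DV706.Inst

/-!
# Sums over `Z/p`: `∑ i g ^ i` for `g ^ l` (block [LIFT-W2] of P216-D)

`nm_powl : nm (g ^ l) = nm g`,
`sumA_powl : (∑ i (g ^ l) ^ i) (1 + ... + g ^ (l - 1)) = ∑ i g ^ i - (l⁻¹ ∑ a < l, a) nm g`
in characteristic `p`, `g ^ p = 1`, `l ≠ 0` in `k`.
The instances `SLin`, `SComp` for the pull back under `f` with `f (g x) = g' ^ l (f x)`.
-/

namespace Vale.Agent.P216.H941D

open Vale.Agent.P216.AS Vale.Agent.P216.H609 Finset Vale.Agent.P216.DV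

section Ring

variable {k : Type} [Field k] {R : Type} [Ring R] [Algebra k R] {p : ℕ}

theorem pow_mod {g : R} (hg : g ^ p = 1) (n : ℕ) : g ^ (n % p) = g ^ n := by
  conv_rhs => rw [← Nat.mod_add_div n p, pow_add, pow_mul, hg, one_pow, mul_one]

theorem sum_zmod [NeZero p] {A : Type} [AddCommMonoid A] (F : ℕ → A) :
    ∑ i ∈ range p, F i = ∑ z : ZMod p, F z.val := by
  refine sum_nbij' (fun i => (i : ZMod p)) (fun z => z.val) (fun _ _ => mem_univ _)
    (fun z _ => mem_range.mpr (ZMod.val_lt z)) (fun i hi => ?_) (fun z _ => ZMod.natCast_zmod_val z)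
    fun i hi => ?_
  · rw [ZMod.val_natCast, Nat.mod_eq_of_lt (mem_range.mp hi)]
  · rw [ZMod.val_natCast, Nat.mod_eq_of_lt (mem_range.mp hi)]

theorem pow_val [NeZero p] {g : R} (hg : g ^ p = 1) (n : ℕ) : g ^ ((n : ZMod p)).val = g ^ n := by
  rw [ZMod.val_natCast, pow_mod hg]

theorem pow_val_mul [NeZero p] {g : R} (hg : g ^ p = 1) (l a : ℕ) (z : ZMod p) :
    g ^ (l * z.val + a) = g ^ ((l : ZMod p) * z + a).val := by
  rw [← pow_val hg (l * z.val + a)]
  congr 2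
  push_cast
  rw [ZMod.natCast_zmod_val]

/-- the bijection `z ↦ l z + a` of `ZMod p` -/
def affE [Fact p.Prime] (l : ZMod p) (hl : l ≠ 0) (a : ZMod p) : ZMod p ≃ ZMod p where
  toFun z := l * z + a
  invFun t := l⁻¹ * (t - a)
  left_inv z := by
    change l⁻¹ * (l * z + a - a) = z
    rw [add_sub_cancel_right, ← mul_assoc, inv_mul_cancel₀ hl, one_mul]
  right_inv t := by
    change l * (l⁻¹ * (t - a)) + a = t
    rw [← mul_assoc, mul_inv_cancel₀ hl, one_mul, sub_add_cancel]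

variable [hp : Fact p.Prime] [CharP k p]

/-- the cast -/
noncomputable abbrev ch (k : Type) [Field k] (p : ℕ) [CharP k p] : ZMod p →+* k :=
  ZMod.castHom (dvd_refl p) k

theorem ch_nat (n : ℕ) : ch k p (n : ZMod p) = (n : k) := map_natCast _ n

theorem ch_val (z : ZMod p) : ((z.val : ℕ) : k) = ch k p z := by
  rw [← ch_nat (p := p), ZMod.natCast_zmod_val]

theorem zl_ne {l : ℕ} (hl : (l : k) ≠ 0) : (l : ZMod p) ≠ 0 := fun h => hl (by
  rw [← ch_nat (p := p), h, map_zero])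

omit [Algebra k R] in
theorem nm_powl {g : R} (hg : g ^ p = 1) {l : ℕ} (hl : (l : k) ≠ 0) :
    nm p (g ^ l) = nm p g := by
  have hl' : (l : ZMod p) ≠ 0 := zl_ne hl
  unfold nm
  rw [sum_zmod, sum_zmod]
  have h1 : ∀ z : ZMod p, (g ^ l) ^ z.val = g ^ (affE (l : ZMod p) hl' 0 z).val := by
    intro z
    rw [← pow_mul]
    have := pow_val_mul hg l 0 z
    rw [add_zero] at this
    rw [this]
    congr 2
    push_cast
    rfl
  simp_rw [h1]
  exact Equiv.sum_comp (affE (l : ZMod p) hl' 0) fun t => g ^ t.val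

theorem sum_pow_mul {g : R} (hg : g ^ p = 1) {l : ℕ} (hl : (l : k) ≠ 0) (a : ℕ) :
    (∑ i ∈ range p, (i : k) • (g ^ l) ^ i) * g ^ a =
      (l : k)⁻¹ • ∑ i ∈ range p, (i : k) • g ^ i - ((l : k)⁻¹ * a) • nm p g := by
  have hl' : (l : ZMod p) ≠ 0 := zl_ne hl
  unfold nm
  rw [sum_mul, sum_zmod, sum_zmod, sum_zmod, smul_sum, smul_sum, ← sum_sub_distrib]
  have h1 : ∀ z : ZMod p, ((z.val : ℕ) : k) • (g ^ l) ^ z.val * g ^ a =
      ch k p ((l : ZMod p)⁻¹ * (affE (l : ZMod p) hl' a z - a)) •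
        g ^ (affE (l : ZMod p) hl' a z).val := by
    intro z
    have e : (l : ZMod p)⁻¹ * (affE (l : ZMod p) hl' a z - a) = z :=
      (affE (l : ZMod p) hl' a).left_inv z
    rw [e, ch_val, smul_mul_assoc, ← pow_mul, ← pow_add, pow_val_mul hg]
    rfl
  rw [sum_congr rfl fun z _ => h1 z,
    Equiv.sum_comp (affE (l : ZMod p) hl' a)
      fun t => ch k p ((l : ZMod p)⁻¹ * (t - a)) • g ^ t.val]
  refine sum_congr rfl fun t _ => ?_
  rw [smul_smul, ← sub_smul, map_mul, map_sub, map_inv₀, ch_nat, ch_nat, ch_val]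
  congr 1
  ring

theorem sumA_powl {g : R} (hg : g ^ p = 1) {l : ℕ} (hl : (l : k) ≠ 0) :
    (∑ i ∈ range p, (i : k) • (g ^ l) ^ i) * nm l g =
      ∑ i ∈ range p, (i : k) • g ^ i - ((l : k)⁻¹ * ∑ a ∈ range l, (a : k)) • nm p g := by
  conv_lhs => rw [nm, mul_sum]
  rw [sum_congr rfl fun a _ => sum_pow_mul hg hl a, sum_sub_distrib, sum_const, card_range,
    ← sum_smul, ← mul_sum, ← Nat.cast_smul_eq_nsmul k, smul_smul, mul_inv_cancel₀ hl, one_smul]

end Ring

/-! ### The pull back -/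

section Pull

variable {E E' : Type} [PseudoMetricSpace E] [PseudoMetricSpace E'] {k : Type} [Field k]
  {I I' : Type} {p : ℕ} (Y : Sym E k I p) (Y' : Sym E' k I' p) {l : ℕ} {f : E' → E}

theorem gE_pow_apply (j : ℕ) {n : ℕ} (c : (ASK E k).K n) :
    (gE Y.gcx n ^ j) c = pbK k (Y.g^[j]) n c := pbK_pow Y.g n j c

variable (hf : ∀ x, f (Y'.g x) = Y.g^[l] (f x))

include hf

theorem gK_pull (n : ℕ) (c : (ASK E k).K n) :
    Y'.gK n (pbK k f n c) = pbK k f n ((gE Y.gcx n ^ l) c) := by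
  rw [gE_pow_apply]
  funext x
  change c (f ∘ (Y'.g ∘ x)) = c (Y.g^[l] ∘ (f ∘ x))
  congr 1
  funext i
  exact hf _

theorem gK_pow_pull (j n : ℕ) (c : (ASK E k).K n) :
    (Y'.gK n ^ j) (pbK k f n c) = pbK k f n (((Y.gK n ^ l) ^ j) c) := by
  induction j generalizing c with
  | zero => rfl
  | succ j ih =>
    rw [pow_succ, Module.End.mul_apply, gK_pull Y Y' hf, ih, pow_succ, Module.End.mul_apply]
    rfl

theorem sum_pull (b : ℕ → k) (n : ℕ) (c : (ASK E k).K n) :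
    (∑ i ∈ range p, b i • Y'.gK n ^ i) (pbK k f n c) =
      pbK k f n ((∑ i ∈ range p, b i • (Y.gK n ^ l) ^ i) c) := by
  rw [LinearMap.sum_apply, LinearMap.sum_apply, map_sum]
  refine sum_congr rfl fun i _ => ?_
  rw [LinearMap.smul_apply, LinearMap.smul_apply, map_smul, gK_pow_pull Y Y' hf]

variable [hp : Fact p.Prime] [CharP k p] (hl : (l : k) ≠ 0)

include hl

theorem slin_pull : SLin Y.gcx Y'.gcx l (pbK k f) where
  d n x := pbK_d f n x
  g n x := gK_pull Y Y' hf n x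
  nm n x := by
    have h1 := sum_pull Y Y' hf (fun _ => (1 : k)) n x
    simp only [one_smul] at h1
    have h2 : (∑ i ∈ range p, (Y.gK n ^ l) ^ i) = nm p (Y.gK n) :=
      nm_powl (k := k) (Y.gK_pow n) hl
    rw [h2] at h1
    exact h1

theorem scomp_pull (h2 : 2 < p) {H : ℝ → E → E} (hH : DV965.Arc Y.g H) {H' : ℝ → E' → E'}
    (hH' : DV965.Arc Y'.g H') :
    SComp (circSym Y h2 hH) (circSym Y' h2 hH') l (pbK k f) where
  ex := by
    refine ⟨(l : k)⁻¹ * ∑ a ∈ range l, (a : k), ?_, fun n x => ?_⟩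
    · rw [← mul_assoc, mul_inv_cancel₀ hl, one_mul]
    · have h1 := sum_pull Y Y' hf (fun i => (i : k)) n (nm l (Y.gK n) x)
      have h3 := congrArg (fun T : Module.End k ((ASK E k).K n) => T x)
        (sumA_powl (k := k) (Y.gK_pow n) hl)
      change (∑ i ∈ range p, (i : k) • (Y.gK n ^ l) ^ i) (nm l (Y.gK n) x) = _ at h3
      rw [h3] at h1
      refine h1.trans ?_
      rw [LinearMap.sub_apply, LinearMap.smul_apply, map_sub, map_smul]
      rfl

end Pull

end Vale.Agent.P216.H941D
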