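import Vale.Agent.P216.H941D.Mor
import Vale.Agent.P216.DV706.Nat

/-!
# Semilinear maps and the class `V`; the map `Psi` on `F = ker V` (block [LIFT-W2] of P216-D)

Under `SMor P P' l φ` and `SComp X X' l φ` (`A' φ N_l = φ A - c φ nm`, `l c = ∑ a < l, a`):
`mF (V x) = l V (mF x)` (homotopy `KK`), and `Psi = l⁻¹ mF : F n → F' n` satisfies
`π Psi = mH π`, `Psi u = l u Psi`, `Psi d = l⁻¹ d mH`.
-/

namespace Vale.Agent.P216.H941D

open Vale.Agent.P216.AS Vale.Agent.P216.H609 Finset SLin Vale.Agent.P216.DV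

variable {k : Type} [Field k] {C C' : Amb k} {G : GCx C} {G' : GCx C'}

/-- compatibility with the operator `A` of the circle data -/
structure SComp (X : Circ G) (X' : Circ G') (l : ℕ) (φ : ∀ n, C.K n →ₗ[k] C'.K n) : Prop where
  ex : ∃ c : k, (l : k) * c = ∑ a ∈ range l, (a : k) ∧ ∀ n x,
    X'.A n (φ n (NN G l n x)) = φ n (X.A n x) - c • φ n (G.nm n x)

theorem two_mul_sum (l : ℕ) : 2 * (∑ a ∈ range l, (a : k)) = l * ((l : k) - 1) := by
  induction l with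
  | zero => simp
  | succ l ih =>
    rw [sum_range_succ, mul_add, ih]
    push_cast
    ring

section Kap

variable (G) (l : ℕ) (φ : ∀ n, C.K n →ₗ[k] C'.K n)

/-- the coefficient `j (l - 1) l ^ j` -/
def al (k : Type) [Field k] (l j : ℕ) : k := (j : k) * ((l : k) - 1) * (l : k) ^ j

/-- the components of the homotopy -/
def kap (n q : ℕ) : C.K q →ₗ[k] C'.K q :=
  if (n + q) % 2 = 0 then al k l ((n - q) / 2) • φ q
  else -(al k l ((n - q) / 2) • φ q ∘ₗ NN G l q + (l : k) ^ ((n - q) / 2) • φ q ∘ₗ MM G l q)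

/-- the homotopy -/
def KK (n : ℕ) : (∀ q, C.K q) →ₗ[k] (∀ q, C'.K q) where
  toFun c q := (-1 : k) ^ q • kap G l φ n q (c q)
  map_add' c c' := by funext q; simp
  map_smul' a c := by
    funext q
    simp only [Pi.smul_apply, map_smul, RingHom.id_apply]
    rw [smul_comm]

end Kap

variable {l : ℕ} {φ : ∀ n, C.K n →ₗ[k] C'.K n}

theorem kap_even {n q : ℕ} (hq : (n + q) % 2 = 0) (x : C.K q) :
    kap G l φ n q x = al k l ((n - q) / 2) • φ q x := by
  rw [kap, if_pos hq, LinearMap.smul_apply]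

theorem kap_odd {n q : ℕ} (hq : (n + q) % 2 = 1) (x : C.K q) :
    kap G l φ n q x = -(al k l ((n - q) / 2) • φ q (NN G l q x) +
      (l : k) ^ ((n - q) / 2) • φ q (MM G l q x)) := by
  rw [kap, if_neg (by omega)]
  rfl

theorem KK_apply (n : ℕ) (c : ∀ q, C.K q) (q : ℕ) :
    KK G l φ n c q = (-1 : k) ^ q • kap G l φ n q (c q) := rfl

theorem kap_mem {S : Sub C} (hS : G.Stable S) {S' : Sub C'}
    (hφ : ∀ {n x}, x ∈ S.S n → φ n x ∈ S'.S n) (n : ℕ) {q : ℕ} {x : C.K q} (hx : x ∈ S.S q) :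
    kap G l φ n q x ∈ S'.S q := by
  rcases Nat.mod_two_eq_zero_or_one (n + q) with hq | hq
  · rw [kap_even hq]; exact Submodule.smul_mem _ _ (hφ hx)
  · rw [kap_odd hq]
    exact Submodule.neg_mem _ (Submodule.add_mem _ (Submodule.smul_mem _ _ (hφ (NN_mem G hS l hx)))
      (Submodule.smul_mem _ _ (hφ (MM_mem G hS l hx))))

theorem KK_mem {S : Sub C} (hS : G.Stable S) {S' : Sub C'} (hS' : G'.Stable S')
    (hφ : ∀ {n x}, x ∈ S.S n → φ n x ∈ S'.S n) (m : ℕ) {n : ℕ} {c : ∀ q, C.K q}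
    (hc : c ∈ (G.TotS S hS).S n) : KK G l φ m c ∈ (G'.TotS S' hS').S n :=
  ⟨fun q hq => Submodule.smul_mem _ _ (kap_mem hS hφ m (hc.1 q hq)),
    fun q hq => by rw [KK_apply, hc.2 q hq, map_zero, smul_zero]⟩

theorem d_kap (h : SLin G G' l φ) (n q : ℕ) (x : C.K q) :
    C'.d q (kap G l φ n q x) = kap G l φ (n + 1) (q + 1) (C.d q x) := by
  have e : n + 1 - (q + 1) = n - q := by omega
  rcases Nat.mod_two_eq_zero_or_one (n + q) with hq | hq
  · rw [kap_even hq, kap_even (by omega), map_smul, h.d, e]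
  · rw [kap_odd hq, kap_odd (by omega), map_neg, map_add, map_smul, map_smul, h.d, h.d, d_NN,
      d_MM, e]

/-- **The key identity.** -/
theorem θ_kap (h : SLin G G' l φ) {X : Circ G} {X' : Circ G'} (hX : SComp X X' l φ) {n q : ℕ}
    (hqn : q ≤ n) (c : ∀ q, C.K q) :
    G'.θ (n + 1 + q) q (kap G l φ n q (c q)) + kap G l φ (n + 1) q (G.θ (n + 1 + q) q (c q)) =
      cp G l φ (n + 1) q (X.Vop n c q) - (l : k) • X'.Vop n (Phi G l φ n c) q := by
  obtain ⟨s, hs, hA⟩ := hX.ex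
  have h2 := two_mul_sum (k := k) l
  rw [← hs] at h2
  rcases Nat.mod_two_eq_zero_or_one (n + q) with hq | hq
  · have e : (n + 1 - q) / 2 = (n - q) / 2 := by omega
    rw [G'.θ_odd (by omega), G.θ_odd (by omega), X.Vop_even hq, X'.Vop_even hq, Phi_apply,
      kap_even hq, kap_odd (by omega), cp_odd (by omega), cp_even hq, e]
    generalize (n - q) / 2 = j
    rw [NN_sub, MM_sub, map_smul, h.g]
    simp only [map_sub, map_smul]
    module
  · have e : (n + 1 - q) / 2 = (n - q) / 2 + 1 := by omega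
    rw [G'.θ_even (by omega), G.θ_even (by omega), X.Vop_odd hq, X'.Vop_odd hq, Phi_apply,
      kap_odd hq, kap_even (by omega), cp_even (by omega), cp_odd hq, e]
    generalize (n - q) / 2 = j
    rw [map_neg, map_add, map_smul, map_smul, h.nm, h.nm, nm_NN, nm_MM, map_smul, map_smul,
      map_smul, hA, ← hs]
    have key : al k l (j + 1) = al k l j * l + (l : k) ^ j * (l * s) + (l : k) * (l : k) ^ j * s := by
      rw [al, al]
      push_cast
      linear_combination (-(l : k) ^ j) * h2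
    rw [key, pow_succ]
    module

theorem θ_kap_all (h : SLin G G' l φ) {X : Circ G} {X' : Circ G'} (hX : SComp X X' l φ) {n : ℕ}
    {c : ∀ q, C.K q} (hc : ∀ q, n < q → c q = 0) (q : ℕ) :
    G'.θ (n + 1 + q) q (kap G l φ n q (c q)) + kap G l φ (n + 1) q (G.θ (n + 1 + q) q (c q)) =
      cp G l φ (n + 1) q (X.Vop n c q) - (l : k) • X'.Vop n (Phi G l φ n c) q := by
  rcases Nat.lt_or_ge n q with hq | hq
  · rw [Circ.Vop_zero (hc q hq), Circ.Vop_zero (SMor.Phi_zero (hc q hq)), hc q hq]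
    simp
  · exact θ_kap h hX hq c

/-- **The homotopy.** -/
theorem Phi_Vop (h : SLin G G' l φ) {X : Circ G} {X' : Circ G'} (hX : SComp X X' l φ) {n : ℕ}
    {c : ∀ q, C.K q} (hc : ∀ q, n < q → c q = 0) :
    Phi G l φ (n + 1) (X.Vop n c) - (l : k) • X'.Vop n (Phi G l φ n c) =
      G'.D n (KK G l φ n c) + KK G l φ (n + 1) (G.D n c) := by
  funext q
  have h0 := θ_kap_all h hX hc q
  cases q with
  | zero =>
    rw [Pi.sub_apply, Pi.smul_apply, Pi.add_apply, Phi_apply, GCx.D_zero, KK_apply, KK_apply,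
      GCx.D_zero, pow_zero, one_smul, one_smul]
    exact h0.symm
  | succ q =>
    rw [Pi.sub_apply, Pi.smul_apply, Pi.add_apply, Phi_apply, GCx.D_succ, KK_apply, KK_apply,
      KK_apply, GCx.D_succ, map_smul, map_smul, map_add, map_smul, d_kap h, ← h0]
    have h1 : ((-1 : k) ^ q * (-1 : k) ^ q) = 1 := by
      rw [← mul_pow, neg_one_mul, neg_neg, one_pow]
    rw [smul_add, smul_smul, smul_smul, pow_succ]
    simp only [mul_neg, mul_one, neg_mul, neg_neg, h1, one_smul, neg_smul]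
    abel

section Map

variable {P : G.Pair} {P' : G'.Pair} (h : SMor P P' l φ) {X : Circ G} {X' : Circ G'}
  (hX : X.PSt P) (hX' : X'.PSt P') (hA : SComp X X' l φ)

include hA in
/-- `mF V = l V mF` -/
theorem mF_VF (n : ℕ) (x : P.FF n) :
    h.mF (n + 1) (hX.VF n x) = (l : k) • hX'.VF n (h.mF n x) := by
  obtain ⟨c, hc, rfl⟩ := H.exists_mk x
  rw [hX.VF_mk, h.mF_mk, h.mF_mk, hX'.VF_mk, ← H.mk_smul, H.mk_eq_mk]
  refine mem_Bc_succ.mpr ⟨KK G l φ n c, KK_mem P.hS P'.hS h.mapS n (mem_Zc.mp hc).1, ?_⟩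
  have h1 := Phi_Vop h.toSLin hA (n := n) (c := c) (mem_Zc.mp hc).1.2
  have h2 : KK G l φ (n + 1) (G.D n c) ∈ (G'.TotS P'.T P'.hT).S (n + 1) :=
    KK_mem P.hT P'.hT h.mapT (n + 1) (mem_Zc.mp hc).2
  change Phi G l φ (n + 1) (X.Vop n c) - (l : k) • X'.Vop n (Phi G l φ n c) -
    G'.D n (KK G l φ n c) ∈ _
  rw [h1, add_sub_cancel_left]
  exact h2

variable (hl : (l : k) ≠ 0)

include hA hl in
theorem mF_mem (n : ℕ) {x : P.FF (n + 1)} (hx : x ∈ hX.F n) : h.mF (n + 1) x ∈ hX'.F n := by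
  rw [Circ.PSt.mem_F] at hx ⊢
  have h1 := mF_VF h hX hX' hA (n + 1) x
  rw [hx, map_zero] at h1
  exact (smul_eq_zero.mp h1.symm).resolve_left hl

/-- **The map on `F`.** -/
noncomputable def Psi (n : ℕ) : hX.F n →ₗ[k] hX'.F n :=
  (l : k)⁻¹ • (h.mF (n + 1)).restrict fun _ hx => mF_mem h hX hX' hA hl n hx

theorem Psi_coe (n : ℕ) (x : hX.F n) :
    (Psi h hX hX' hA hl n x : P'.FF (n + 1)) = (l : k)⁻¹ • h.mF (n + 1) x.1 := rfl

/-- `π Psi = mH π` -/
theorem πF_Psi (n : ℕ) (x : hX.F n) :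
    hX'.πF n (Psi h hX hX' hA hl n x) = h.mH n (hX.πF n x) := by
  apply hX'.a_inj n
  rw [hX'.a_πF, Psi_coe, map_smul, h.π_mF, ← hX.a_πF, h.mE_a hX, smul_smul, inv_mul_cancel₀ hl,
    one_smul]

/-- `Psi u = l u Psi` -/
theorem Psi_uF (n : ℕ) (x : hX.F n) :
    Psi h hX hX' hA hl (n + 2) (hX.uF n x) =
      (l : k) • hX'.uF n (Psi h hX hX' hA hl n x) := by
  refine Subtype.ext ?_
  change (l : k)⁻¹ • h.mF (n + 1 + 2) (P.u (n + 1) x.1) =
    (l : k) • P'.u (n + 1) ((l : k)⁻¹ • h.mF (n + 1) x.1)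
  rw [h.mF_u, map_smul, smul_comm]

/-- `Psi d = l⁻¹ d mH` -/
theorem Psi_dF (n : ℕ) (y : P.HH (n + 1)) :
    Psi h hX hX' hA hl n (hX.dF n y) = (l : k)⁻¹ • hX'.dF n (h.mH (n + 1) y) := by
  refine Subtype.ext ?_
  change (l : k)⁻¹ • h.mF (n + 1) (P.δ (n + 1) (P.a (n + 1) y)) =
    (l : k)⁻¹ • P'.δ (n + 1) (P'.a (n + 1) (h.mH (n + 1) y))
  have h1 := h.δ_mE (n + 1) (P.a (n + 1) y)
  rw [h.mE_a hX, map_smul] at h1
  rw [smul_right_injective _ hl h1]

/-- the value on the image of `V` -/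
theorem Psi_VF (n : ℕ) (y : P.FF n) :
    Psi h hX hX' hA hl n ⟨hX.VF n y, hX.VF_mem n y⟩ =
      ⟨hX'.VF n (h.mF n y), hX'.VF_mem n _⟩ := by
  refine Subtype.ext ?_
  rw [Psi_coe]
  change (l : k)⁻¹ • h.mF (n + 1) (hX.VF n y) = hX'.VF n (h.mF n y)
  rw [mF_VF h hX hX' hA, smul_smul, inv_mul_cancel₀ hl, one_smul]

end Map

end Vale.Agent.P216.H941D
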